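import Vale.Agent.P058.Nec

set_option autoImplicit false

open Finset TensorProduct

namespace Vale.Agent.P058

variable {ι : Type} {d : ℕ}

/-- the tensor criterion over a subfield -/
def CritF (F : Subfield ℝ) (b : ι → Fin d → F) : Prop :=
  ∃ P : Fin (d + 1) → Fin (d + 1) → F ⊗[ℚ] F,
    (∀ i, ∑ α, ∑ β, ((Fin.cons 1 (b i) : Fin (d + 1) → F) α ⊗ₜ[ℚ]
      (Fin.cons 1 (b i) : Fin (d + 1) → F) β) * P α β = 0) ∧
      ∀ α β : Fin d, LinearMap.mul' ℚ F (P α.succ β.succ) = if α = β then 1 else 0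

theorem pt_coe (F : Subfield ℝ) (b : Fin d → F) (α : Fin (d + 1)) :
    pt (fun k => (b k : ℝ)) α = ((Fin.cons 1 b : Fin (d + 1) → F) α : F) := by
  refine Fin.cases ?_ (fun k => ?_) α <;> simp [pt]

theorem ascent (F : Subfield ℝ) : ∃ Φ : F ⊗[ℚ] F →+ ℝ ⊗[ℚ] ℝ,
    (∀ (p q : F) t, Φ ((p ⊗ₜ[ℚ] q) * t) = ((p : ℝ) ⊗ₜ[ℚ] (q : ℝ)) * Φ t) ∧
      ∀ t, LinearMap.mul' ℚ ℝ (Φ t) = LinearMap.mul' ℚ F t := by
  let j : F →ₗ[ℚ] ℝ := F.subtype.toAddMonoidHom.toRatLinearMap
  have hj : ∀ x : F, j x = x := fun _ => rfl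
  refine ⟨(TensorProduct.map j j).toAddMonoidHom, fun p q t => ?_, fun t => ?_⟩
  · induction t using TensorProduct.induction_on with
    | zero => simp
    | add s t hs ht => rw [mul_add, map_add, hs, ht, map_add, mul_add]
    | tmul x y => simp [hj]
  · induction t using TensorProduct.induction_on with
    | zero => simp
    | add s t hs ht => rw [map_add, map_add, hs, ht, map_add]; simp
    | tmul x y => simp [hj]

theorem descent (F : Subfield ℝ) : ∃ (Ψ : ℝ ⊗[ℚ] ℝ →+ F ⊗[ℚ] F) (π : ℝ →+ F),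
    π 1 = 1 ∧ (∀ (p q : F) t, Ψ (((p : ℝ) ⊗ₜ[ℚ] (q : ℝ)) * t) = (p ⊗ₜ[ℚ] q) * Ψ t) ∧
      ∀ t, LinearMap.mul' ℚ F (Ψ t) = π (LinearMap.mul' ℚ ℝ t) := by
  classical
  obtain ⟨π, hπ⟩ := Module.Projective.exists_dual_eq_one F (V := ℝ) one_ne_zero
  let b := Module.Basis.ofVectorSpace F ℝ
  let g : ℝ → ℝ →+ F ⊗[ℚ] F := fun x =>
    (Finsupp.liftAddHom fun t => (TensorProduct.mk ℚ F F (π (x * b t))).toAddMonoidHom).comp
      b.repr.toLinearMap.toAddMonoidHom
  have hg : ∀ x (c : F) t, g x (c • b t) = π (x * b t) ⊗ₜ[ℚ] c := by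
    intro x c t
    simp [g]
  have ind : ∀ {p : ℝ → Prop} (zero : p 0) (add : ∀ x y, p x → p y → p (x + y))
      (single : ∀ (c : F) t, p (c • b t)) (y : ℝ), p y := by
    intro p h0 h1 h2 y
    rw [← b.linearCombination_repr y]
    induction b.repr y using Finsupp.induction_linear with
    | zero => simpa using h0
    | add f g hf hg => rw [map_add]; exact h1 _ _ hf hg
    | single t c => simpa using h2 c t
  let G : ℝ →+ ℝ →+ F ⊗[ℚ] F := AddMonoidHom.mk' g fun x x' => by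
    ext y
    induction y using ind with
    | zero => simp
    | add y y' h h' => simp only [map_add, AddMonoidHom.add_apply] at h h' ⊢; rw [h, h']
    | single c t => rw [AddMonoidHom.add_apply, hg, hg, hg, add_mul, map_add, add_tmul]
  let Ψ : ℝ ⊗[ℚ] ℝ →+ F ⊗[ℚ] F := TensorProduct.liftAddHom G fun r m n => by
    rw [map_rat_smul G r m, map_rat_smul (G m) r n]; rfl
  have hΨ : ∀ x y, Ψ (x ⊗ₜ[ℚ] y) = g x y := fun _ _ => rfl
  refine ⟨Ψ, π.toAddMonoidHom, hπ, fun p q t => ?_, fun t => ?_⟩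
  · induction t using TensorProduct.induction_on with
    | zero => simp
    | add s t hs ht => rw [mul_add, map_add, hs, ht, map_add, mul_add]
    | tmul x y =>
      rw [Algebra.TensorProduct.tmul_mul_tmul, hΨ, hΨ]
      induction y using ind with
      | zero => simp
      | add y y' h h' => rw [mul_add, map_add, map_add, h, h', mul_add]
      | single c t =>
        have e : (q : ℝ) * c • b t = (q * c) • b t := by rw [mul_smul]; rfl
        have e2 : (p : ℝ) * x * b t = p • (x * b t) := by rw [mul_assoc]; rfl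
        rw [e, hg, hg, Algebra.TensorProduct.tmul_mul_tmul, e2, map_smul, smul_eq_mul]
  · induction t using TensorProduct.induction_on with
    | zero => simp
    | add s t hs ht => rw [map_add, map_add, hs, ht, map_add, map_add]
    | tmul x y =>
      rw [hΨ, LinearMap.mul'_apply]
      induction y using ind with
      | zero => simp
      | add y y' h h' => rw [mul_add, map_add, map_add, h, h', map_add]
      | single c t =>
        rw [hg, LinearMap.mul'_apply, mul_smul_comm, LinearMap.toAddMonoidHom_coe, map_smul,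
          smul_eq_mul, mul_comm]

theorem critF_iff (F : Subfield ℝ) (b : ι → Fin d → F) :
    CritF F b ↔ Crit fun i k => (b i k : ℝ) := by
  constructor
  · rintro ⟨P, h1, h2⟩
    obtain ⟨Φ, f1, f2⟩ := ascent F
    refine ⟨fun α β => Φ (P α β), fun i => ?_, fun α β => ?_⟩
    · simp only [pt_coe, ← f1, ← map_sum, h1, map_zero]
    · rw [f2, h2]; split_ifs <;> simp
  · rintro ⟨P, h1, h2⟩
    obtain ⟨Ψ, π, f0, f1, f2⟩ := descent F
    refine ⟨fun α β => Ψ (P α β), fun i => ?_, fun α β => ?_⟩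
    · have := h1 i
      simp only [pt_coe] at this
      simp only [← f1, ← map_sum, this, map_zero]
    · rw [f2, h2]; split_ifs <;> simp [f0]

theorem Ram.comp {ι' : Type} {n : ℕ} {x : ι' → Fin n → ℝ} (h : Ram x) {a : ι → Fin d → ℝ}
    (f : ι → ι') (hf : ∀ i j, DD x (f i) (f j) = DD a i j) : Ram a := by
  intro r hr
  obtain ⟨m, hm, h⟩ := h r hr
  refine ⟨m, hm, fun c => ?_⟩
  obtain ⟨y, hy, k, hk⟩ := h c
  refine ⟨fun i => y (f i), ?_, k, fun i => hk _⟩
  funext i j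
  rw [← hf, ← hy]; rfl

theorem sum_symm [Fintype ι] [DecidableEq ι] (D : ι → ι → ℝ)
    (htr : ∀ i j, ∃ τ : Equiv.Perm ι, (∀ k l, D (τ k) (τ l) = D k l) ∧ τ i = j)
    {M : Type} [AddCommMonoid M] (f : ι → M) (i j : ι) :
    ∑ σ : Equiv.Perm ι with ∀ k l, D (σ k) (σ l) = D k l, f (σ i) =
      ∑ σ : Equiv.Perm ι with ∀ k l, D (σ k) (σ l) = D k l, f (σ j) := by
  obtain ⟨τ, h1, h2⟩ := htr i j
  symm
  refine sum_equiv (Equiv.mulRight τ) (fun σ => ?_) fun σ _ => by simp [h2]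
  simp only [mem_filter, mem_univ, true_and, Equiv.coe_mulRight, Equiv.Perm.mul_apply]
  constructor
  · intro h k l; rw [h, h1]
  · intro h k l
    have := h (τ.symm k) (τ.symm l)
    rw [← h1 (τ.symm k)] at this
    simpa using this

theorem trans_crit [Fintype ι] [Nonempty ι] (x : ι → Fin d → ℝ)
    (htr : ∀ i j, ∃ τ : Equiv.Perm ι, (∀ k l, DD x (τ k) (τ l) = DD x k l) ∧ τ i = j) :
    Crit x := by
  classical
  set G : Finset (Equiv.Perm ι) := {σ | ∀ k l, DD x (σ k) (σ l) = DD x k l} with hG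
  have hc : (G.card : ℚ) ≠ 0 := by
    have : (1 : Equiv.Perm ι) ∈ G := by simp [hG]
    exact_mod_cast (card_pos.2 ⟨_, this⟩).ne'
  have hQ : ∀ σ : Equiv.Perm ι, ∃ Q : Fin (d + 1) → Fin (d + 1) → ℝ ⊗[ℚ] ℝ, σ ∈ G →
      (LL x Q = fun i => ∑ k, x (σ i) k ⊗ₜ[ℚ] x (σ i) k) ∧
        MM d Q = fun α β => if α = β then 1 else 0 := by
    intro σ
    by_cases hσ : σ ∈ G
    · obtain ⟨Q, h1, h2⟩ := copy x (fun i => x (σ i))
        (by funext k l; exact (mem_filter.1 hσ).2 k l)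
      exact ⟨Q, fun _ => ⟨funext h1, funext fun α => funext (h2 α)⟩⟩
    · exact ⟨0, fun h => absurd h hσ⟩
  choose Q hQ using hQ
  let o : ι := Classical.arbitrary ι
  let t : ℝ ⊗[ℚ] ℝ := ∑ σ ∈ G, ∑ k, x (σ o) k ⊗ₜ[ℚ] x (σ o) k
  let P : Fin (d + 1) → Fin (d + 1) → ℝ ⊗[ℚ] ℝ :=
    (G.card : ℚ)⁻¹ • (∑ σ ∈ G, Q σ - Pi.single 0 (Pi.single 0 t))
  have h1 : LL x P = 0 := by
    have e : LL x (Pi.single 0 (Pi.single 0 t)) = fun _ => t := by
      funext i
      simp [LL, pt, Fin.sum_univ_succ, ← Algebra.TensorProduct.one_def]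
    rw [map_smul, map_sub, map_sum, sum_congr rfl fun σ hσ => (hQ σ hσ).1, e]
    funext i
    rw [Pi.smul_apply, Pi.sub_apply, Finset.sum_apply,
      sum_symm (DD x) htr (fun i => ∑ k, x i k ⊗ₜ[ℚ] x i k) i o, sub_self, smul_zero, Pi.zero_apply]
  have h2 : MM d P = fun α β => if α = β then 1 else 0 := by
    have e : MM d (Pi.single 0 (Pi.single 0 t)) = 0 := by
      funext α β
      simp [MM]
    rw [map_smul, map_sub, map_sum, sum_congr rfl fun σ hσ => (hQ σ hσ).2, e, sub_zero, sum_const,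
      ← Nat.cast_smul_eq_nsmul ℚ, smul_smul, inv_mul_cancel₀ hc, one_smul]
  exact ⟨P, congrFun h1, fun α β => congrFun (congrFun h2 α) β⟩

theorem ind_crit [Fintype ι] [DecidableEq ι] (a : ι → Fin d → ℝ) (z : Fin d → ℝ) (ρ : ℝ)
    (hs : ∀ i, ∑ α, (a i α - z α) ^ 2 = ρ) (R : ι → Fin (d + 1) → Fin (d + 1) → ℝ)
    (hR : ∀ i j, ∑ α, ∑ β, pt (a i) α * pt (a i) β * R j α β = if i = j then 1 else 0) :
    Crit a := by
  let m : ℝ ⊗[ℚ] ℝ →+* ℝ := (Algebra.TensorProduct.lmul' ℚ (S := ℝ)).toRingHom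
  have hm : ∀ t, LinearMap.mul' ℚ ℝ t = m t := fun t => rfl
  have hm' : ∀ x y : ℝ, m (x ⊗ₜ[ℚ] y) = x * y := fun x y => rfl
  let S : Fin (d + 1) → Fin (d + 1) → ℝ := Fin.cons (Fin.cons (∑ α, z α ^ 2 - ρ) fun β => -z β)
    fun α => Fin.cons (-z α) fun β => if α = β then 1 else 0
  let L : (Fin (d + 1) → Fin (d + 1) → ℝ) → ι → ℝ ⊗[ℚ] ℝ := fun B i =>
    ∑ α, ∑ β, (pt (a i) α ⊗ₜ[ℚ] pt (a i) β) * (B α β ⊗ₜ[ℚ] 1)
  have hL : ∀ B i, m (L B i) = ∑ α, ∑ β, pt (a i) α * pt (a i) β * B α β := by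
    intro B i
    simp only [L, map_sum, map_mul, hm', mul_one]
  have hw : ∀ i, m (L S i) = 0 := by
    intro i
    rw [hL]
    have := hs i
    simp only [sub_sq, sum_add_distrib, sum_sub_distrib] at this
    simp only [S, pt, Fin.sum_univ_succ, Fin.cons_zero, Fin.cons_succ, one_mul, mul_one, mul_ite,
      mul_zero, sum_ite_eq, mem_univ, if_true, sum_add_distrib, mul_neg, sum_neg_distrib]
    simp only [mul_assoc, ← mul_sum, pow_two] at this ⊢
    linarith
  let N : Matrix ι ι (ℝ ⊗[ℚ] ℝ) := Matrix.of fun i j => L (R j) i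
  have hN : m.mapMatrix N = 1 := by
    ext i j
    rw [RingHom.mapMatrix_apply, Matrix.map_apply, Matrix.one_apply, ← hR, ← hL]
    rfl
  have hdet : m N.det = 1 := by rw [RingHom.map_det, hN, Matrix.det_one]
  let u : ι → ℝ ⊗[ℚ] ℝ := N.adjugate.mulVec (L S)
  have hu : ∀ j, m (u j) = 0 := by
    intro j
    simp only [u, Matrix.mulVec, dotProduct, map_sum, map_mul, hw, mul_zero, sum_const_zero]
  have hNu : N.mulVec u = N.det • L S := by
    rw [Matrix.mulVec_mulVec, Matrix.mul_adjugate, Matrix.smul_mulVec, Matrix.one_mulVec]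
  refine ⟨fun α β => N.det * (S α β ⊗ₜ[ℚ] 1) - ∑ j, (R j α β ⊗ₜ[ℚ] 1) * u j, fun i => ?_,
    fun α β => ?_⟩
  · have h1 := congrFun hNu i
    simp only [Matrix.mulVec, dotProduct, N, Matrix.of_apply, Pi.smul_apply, smul_eq_mul] at h1
    have h2 : ∑ α, ∑ β, (pt (a i) α ⊗ₜ[ℚ] pt (a i) β) * ∑ j, (R j α β ⊗ₜ[ℚ] 1) * u j =
        ∑ j, L (R j) i * u j := by
      simp only [L, sum_mul, mul_sum, mul_assoc]
      rw [sum_comm (s := (univ : Finset ι))]
      exact sum_congr rfl fun α _ => sum_comm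
    have h3 : ∑ α, ∑ β, (pt (a i) α ⊗ₜ[ℚ] pt (a i) β) * (N.det * (S α β ⊗ₜ[ℚ] 1)) =
        N.det * L S i := by
      simp only [L, mul_sum]
      exact sum_congr rfl fun α _ => sum_congr rfl fun β _ => mul_left_comm _ _ _
    simp only [mul_sub, sum_sub_distrib]
    rw [h2, h3, h1, sub_self]
  · rw [hm, map_sub, map_mul, hdet, map_sum]
    simp [hu, hm', S]

theorem line_two {a : ι → Fin d → ℝ} (ha : Function.Injective a) (z : Fin d → ℝ) (ρ : ℝ)
    (hs : ∀ i, ∑ α, (a i α - z α) ^ 2 = ρ) (j k l : ι) (hk : j ≠ k) (hl : j ≠ l) :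
    ∃ f : Fin (d + 1) → ℝ, evp (a k) f = 0 ∧ evp (a l) f = 0 ∧ evp (a j) f = 1 := by
  set u : Fin d → ℝ := fun α => a l α - a k α with hu
  set v : Fin d → ℝ := fun α => a j α - a k α with hv
  set t := (∑ α, u α * v α) / ∑ α, u α ^ 2 with ht
  set y : Fin d → ℝ := fun α => v α - t * u α with hy
  have h1 : ∑ α, u α * y α = 0 := by
    have e : ∑ α, u α * y α = ∑ α, u α * v α - t * ∑ α, u α ^ 2 := by
      rw [mul_sum, ← sum_sub_distrib]
      exact sum_congr rfl fun α _ => by rw [hy]; ring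
    by_cases h0 : ∑ α, u α ^ 2 = 0
    · have : ∀ α, u α = 0 := fun α => pow_eq_zero_iff two_ne_zero |>.1
        ((sum_eq_zero_iff_of_nonneg fun _ _ => sq_nonneg _).1 h0 α (mem_univ _))
      simp [this]
    · rw [e, ht]; field_simp; ring
  have hsph : ∀ i, ∑ α, (a i α - a k α) ^ 2 + 2 * ∑ α, (a i α - a k α) * (a k α - z α) = 0 := by
    intro i
    have e : ∑ α, (a i α - a k α) ^ 2 + 2 * ∑ α, (a i α - a k α) * (a k α - z α) =
        ∑ α, (a i α - z α) ^ 2 - ∑ α, (a k α - z α) ^ 2 := by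
      rw [mul_sum, ← sum_add_distrib, ← sum_sub_distrib]
      exact sum_congr rfl fun α _ => by ring
    rw [e, hs, hs, sub_self]
  have h2 : ∑ α, y α ^ 2 ≠ 0 := by
    intro h0
    have hy0 : ∀ α, v α = t * u α := fun α => sub_eq_zero.1 <| pow_eq_zero_iff two_ne_zero |>.1
        ((sum_eq_zero_iff_of_nonneg fun _ _ => sq_nonneg _).1 h0 α (mem_univ _))
    have e1 : ∑ α, u α ^ 2 + 2 * ∑ α, u α * (a k α - z α) = 0 := hsph l
    have e2 : ∑ α, v α ^ 2 + 2 * ∑ α, v α * (a k α - z α) = 0 := hsph j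
    have e3 : ∑ α, v α ^ 2 = t ^ 2 * ∑ α, u α ^ 2 := by simp only [hy0, mul_pow, mul_sum]
    have e4 : ∑ α, v α * (a k α - z α) = t * ∑ α, u α * (a k α - z α) := by
      simp only [hy0, mul_assoc, mul_sum]
    have e5 : 0 < ∑ α, v α ^ 2 := DD_pos (i := j) (j := k) (ha.ne hk.symm)
    have e6 : t = 1 := by
      have : (t - 1) * (t * ∑ α, u α ^ 2) = 0 := by linear_combination e2 - e3 - 2 * e4 - t * e1
      rcases mul_eq_zero.1 this with h | h
      · linarith
      · exfalso; rw [e3, pow_two, mul_assoc, h, mul_zero] at e5; exact lt_irrefl _ e5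
    refine hl (ha ?_)
    funext α
    have := hy0 α
    rw [e6, one_mul] at this
    exact sub_left_injective this
  have h3 : ∑ α, v α * y α = ∑ α, y α ^ 2 := by
    have : ∑ α, v α * y α = ∑ α, y α ^ 2 + t * ∑ α, u α * y α := by
      rw [mul_sum, ← sum_add_distrib]
      exact sum_congr rfl fun α _ => by rw [hy]; ring
    rw [this, h1]; ring
  have key : ∀ i, evp (a i) (Fin.cons (-∑ α, y α / (∑ α, y α ^ 2) * a k α)
      fun α => y α / ∑ α, y α ^ 2) = (∑ α, (a i α - a k α) * y α) / ∑ α, y α ^ 2 := by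
    intro i
    rw [evp_apply, sum_div]
    simp only [grd, AddMonoidHom.mk'_apply, Fin.cons_succ, Fin.cons_zero]
    rw [neg_add_eq_sub, ← sum_sub_distrib]
    exact sum_congr rfl fun α _ => by ring
  refine ⟨_, (key k).trans (by simp), (key l).trans ?_, (key j).trans ?_⟩
  · rw [h1, zero_div]
  · rw [h3, div_self h2]

theorem line_set {a : ι → Fin d → ℝ} (ha : Function.Injective a) (z : Fin d → ℝ) (ρ : ℝ)
    (hs : ∀ i, ∑ α, (a i α - z α) ^ 2 = ρ) (j : ι) (s : Finset ι) (hj : j ∉ s) (hc : s.card ≤ 2) :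
    ∃ f : Fin (d + 1) → ℝ, (∀ i ∈ s, evp (a i) f = 0) ∧ evp (a j) f = 1 := by
  classical
  have : s.card = 0 ∨ s.card = 1 ∨ s.card = 2 := by omega
  rcases this with h | h | h
  · rw [card_eq_zero.1 h]
    exact ⟨Pi.single 0 1, by simp, by simp [evp_single, pt]⟩
  · obtain ⟨k, rfl⟩ := card_eq_one.1 h
    obtain ⟨f, h1, -, h3⟩ := line_two ha z ρ hs j k k (by simpa using hj) (by simpa using hj)
    exact ⟨f, by simpa using h1, h3⟩
  · obtain ⟨k, l, -, rfl⟩ := card_eq_two.1 h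
    simp only [mem_insert, mem_singleton, not_or] at hj
    obtain ⟨f, h1, h2, h3⟩ := line_two ha z ρ hs j k l hj.1 hj.2
    exact ⟨f, by simpa using ⟨h1, h2⟩, h3⟩

theorem five_crit [Fintype ι] {a : ι → Fin d → ℝ} (ha : Function.Injective a) (z : Fin d → ℝ)
    (ρ : ℝ) (hs : ∀ i, ∑ α, (a i α - z α) ^ 2 = ρ) (hc : Fintype.card ι ≤ 5) : Crit a := by
  classical
  have key : ∀ j, ∃ f g : Fin (d + 1) → ℝ,
      ∀ i, evp (a i) f * evp (a i) g = if i = j then 1 else 0 := by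
    intro j
    have h4 : (univ.erase j).card ≤ 4 := by
      rw [card_erase_of_mem (mem_univ _), card_univ]; omega
    obtain ⟨s, hs1, hs2⟩ := exists_subset_card_eq (s := univ.erase j)
      (min_le_right 2 (univ.erase j).card)
    obtain ⟨f, f1, f2⟩ := line_set ha z ρ hs j s (fun h => by simpa using hs1 h) (by omega)
    obtain ⟨g, g1, g2⟩ := line_set ha z ρ hs j (univ.erase j \ s) (by simp)
      (by rw [card_sdiff_of_subset hs1]; omega)
    refine ⟨f, g, fun i => ?_⟩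
    split_ifs with h
    · rw [h, f2, g2, one_mul]
    · by_cases hi : i ∈ s
      · rw [f1 i hi, zero_mul]
      · rw [g1 i (by simp [h, hi]), mul_zero]
  choose f g hfg using key
  refine ind_crit a z ρ hs (fun j α β => f j α * g j β) fun i j => ?_
  rw [← hfg]
  simp only [evp, AddMonoidHom.mk'_apply, sum_mul_sum]
  exact sum_congr rfl fun α _ => sum_congr rfl fun β _ => by ring

end Vale.Agent.P058
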