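import Mathlib

set_option autoImplicit false

open scoped commutatorElement

namespace Vale.Agent.P058

/-- lower central series of the whole group -/
abbrev lcs (F : Type) [Group F] (k : ℕ) : Subgroup F := (⊤ : Subgroup F).lowerCentralSeries k

theorem lcs_map {F F' : Type} [Group F] [Group F'] (φ : F →* F') (k : ℕ) {z : F}
    (hz : z ∈ lcs F k) : φ z ∈ lcs F' k := by
  induction k generalizing z with
  | zero => trivial
  | succ k ih =>
    have : (lcs F (k + 1)).map φ ≤ lcs F' (k + 1) := by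
      show (⁅lcs F k, ⊤⁆ : Subgroup F).map φ ≤ ⁅lcs F' k, ⊤⁆
      rw [Subgroup.map_commutator]
      refine Subgroup.commutator_mono ?_ le_top
      rintro _ ⟨x, hx, rfl⟩
      exact ih hx
    exact this ⟨z, hz, rfl⟩

theorem lcs_central {F : Type} [Group F] (k : ℕ) {z : F} (hz : z ∈ lcs F k)
    (w : F ⧸ lcs F (k + 1)) : Commute (QuotientGroup.mk' (lcs F (k + 1)) z) w := by
  obtain ⟨y, rfl⟩ := QuotientGroup.mk'_surjective _ w
  rw [← commutatorElement_eq_one_iff_commute, ← map_commutatorElement, QuotientGroup.mk'_apply,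
    QuotientGroup.eq_one_iff]
  exact Subgroup.commutator_mem_commutator hz trivial

theorem pow_lemma_zero {F : Type} [Group F] (φ : F →* F) (m : ℕ) (X : Set F)
    (hX : Subgroup.closure X = ⊤) (hφ : ∀ x ∈ X, φ x = x ^ m) (z : F) :
    QuotientGroup.mk' (lcs F 1) (φ z) = QuotientGroup.mk' (lcs F 1) z ^ m := by
  have hz : z ∈ Subgroup.closure X := hX ▸ trivial
  induction hz using Subgroup.closure_induction with
  | mem x hx => rw [hφ x hx, map_pow]
  | one => rw [map_one, map_one, one_pow]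
  | mul x y _ _ hx hy =>
    rw [map_mul, map_mul, map_mul, hx, hy, (lcs_central 0 (z := x) trivial _).mul_pow]
  | inv x _ hx => rw [map_inv, map_inv, map_inv, hx, inv_pow]

theorem pow_lemma {F : Type} [Group F] (φ : F →* F) (m : ℕ) (X : Set F)
    (hX : Subgroup.closure X = ⊤) (hφ : ∀ x ∈ X, φ x = x ^ m) (k : ℕ) :
    ∀ z ∈ lcs F k, QuotientGroup.mk' (lcs F (k + 1)) (φ z) =
      QuotientGroup.mk' (lcs F (k + 1)) z ^ (m ^ (k + 1)) := by
  induction k with
  | zero => intro z _; simpa using pow_lemma_zero φ m X hX hφ z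
  | succ k ih =>
    intro z hz
    set π := QuotientGroup.mk' (lcs F (k + 1 + 1)) with hπ
    have hcen : ∀ a ∈ lcs F k, ∀ b, ∀ w, Commute (π ⁅a, b⁆) w := fun a ha b w =>
      lcs_central (k + 1) (Subgroup.commutator_mem_commutator ha trivial) w
    induction hz using Subgroup.closure_induction with
    | mem x hx =>
      obtain ⟨p, hp, q, -, rfl⟩ := hx
      -- homomorphism in the second variable
      have hf : ∀ a ∈ lcs F k, π ⁅a, φ q⁆ = π ⁅a, q⁆ ^ m := by
        intro a ha
        let f : F →* F ⧸ lcs F (k + 1 + 1) := MonoidHom.mk' (fun b => π ⁅a, b⁆) (by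
          intro b c
          have e : ⁅a, b * c⁆ = ⁅a, b⁆ * (b * ⁅a, c⁆ * b⁻¹) := by
            simp only [commutatorElement_def]; group
          rw [e, map_mul, map_mul, map_mul, ← (hcen a ha c (π b)).eq, map_inv,
            mul_inv_cancel_right])
        have hker : lcs F 1 ≤ f.ker := by
          show ⁅(⊤ : Subgroup F), ⊤⁆ ≤ f.ker
          rw [Subgroup.commutator_le]
          intro x _ y _
          rw [MonoidHom.mem_ker, map_commutatorElement, commutatorElement_eq_one_iff_commute]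
          exact hcen a ha x _
        have h0 := pow_lemma_zero φ m X hX hφ q
        rw [← map_pow, QuotientGroup.mk'_apply, QuotientGroup.mk'_apply, QuotientGroup.eq] at h0
        have h1 := hker h0
        rw [MonoidHom.mem_ker, map_mul, map_inv, inv_mul_eq_one, map_pow] at h1
        exact h1
      -- homomorphism in the first variable
      let g : lcs F k →* F ⧸ lcs F (k + 1 + 1) := MonoidHom.mk' (fun a => π ⁅a.1, q⁆) (by
        intro a b
        have e : ⁅a.1 * b.1, q⁆ = (a.1 * ⁅b.1, q⁆ * a.1⁻¹) * ⁅a.1, q⁆ := by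
          simp only [commutatorElement_def]; group
        rw [Subgroup.coe_mul, e, map_mul, map_mul, map_mul, ← (hcen b.1 b.2 q (π a.1)).eq,
          map_inv, mul_inv_cancel_right, (hcen b.1 b.2 q _).eq])
      have h0 := ih p hp
      rw [← map_pow, QuotientGroup.mk'_apply, QuotientGroup.mk'_apply, QuotientGroup.eq] at h0
      have h1 : g ((⟨φ p, lcs_map φ k hp⟩ : lcs F k)⁻¹ * ⟨p, hp⟩ ^ (m ^ (k + 1))) = 1 := by
        show π ⁅(φ p)⁻¹ * p ^ (m ^ (k + 1)), q⁆ = 1
        rw [hπ, QuotientGroup.mk'_apply, QuotientGroup.eq_one_iff]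
        exact Subgroup.commutator_mem_commutator h0 trivial
      rw [map_mul, map_inv, inv_mul_eq_one, map_pow] at h1
      have h2 : π ⁅φ p, q⁆ = π ⁅p, q⁆ ^ (m ^ (k + 1)) := h1
      rw [map_commutatorElement φ, hf _ (lcs_map φ k hp), h2, ← pow_mul, ← pow_succ]
    | one => rw [map_one, map_one, one_pow]
    | mul x y hx _ ihx ihy =>
      rw [map_mul, map_mul, map_mul, ihx, ihy, (lcs_central (k + 1) hx _).mul_pow]
    | inv x _ hx => rw [map_inv, map_inv, map_inv, hx, inv_pow]

variable {ι : Type}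

/-- the word read in coordinate `i` along a list of columns -/
def word (X : List (ι → ℝ)) (i : ι) : FreeGroup ℝ := (X.map fun c => FreeGroup.of (c i)).prod

/-- the squared distance matrix of a list of columns -/
def Dw (X : List (ι → ℝ)) : ι → ι → ℝ := fun i j => (X.map fun c => (c i - c j) ^ 2).sum

theorem word_append (X Y : List (ι → ℝ)) (i : ι) : word (X ++ Y) i = word X i * word Y i := by
  simp [word]

theorem Dw_append (X Y : List (ι → ℝ)) : Dw (X ++ Y) = Dw X + Dw Y := by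
  funext i j; simp [Dw]

theorem exists_pow_list (X : List (ι → ℝ)) (N : ℕ) :
    ∃ Y : List (ι → ℝ), (∀ i, word Y i = word X i ^ N) ∧ Dw Y = (N : ℝ) • Dw X := by
  induction N with
  | zero => exact ⟨[], fun i => by simp [word], by funext i j; simp [Dw]⟩
  | succ N ih =>
    obtain ⟨Y, h1, h2⟩ := ih
    refine ⟨Y ++ X, fun i => by rw [word_append, h1, pow_succ], ?_⟩
    rw [Dw_append, h2, Nat.cast_succ, add_smul, one_smul]

theorem exists_rep_list (X : List (ι → ℝ)) (m : ℕ) :
    ∃ Y : List (ι → ℝ),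
      (∀ i, word Y i = FreeGroup.lift (fun x => FreeGroup.of x ^ m) (word X i)) ∧
      Dw Y = (m : ℝ) • Dw X := by
  induction X with
  | nil => exact ⟨[], fun i => by simp [word], by funext i j; simp [Dw]⟩
  | cons c X ih =>
    obtain ⟨Y, h1, h2⟩ := ih
    obtain ⟨Z, h3, h4⟩ := exists_pow_list [c] m
    refine ⟨Z ++ Y, fun i => ?_, ?_⟩
    · rw [word_append, h1, h3]
      simp [word]
    · rw [Dw_append, h2, h4, ← smul_add, ← Dw_append]
      rfl

/-- a pair of column lists with nearly free gain of weight, equal modulo `lcs k` -/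
def Rel (D : ι → ι → ℝ) (k : ℕ) : Prop :=
  ∀ κ : ℝ, 0 < κ → ∃ (X Y : List (ι → ℝ)) (s g : ℝ), 0 < g ∧ 0 ≤ s ∧ s ≤ κ * g ∧
    Dw X = s • D ∧ Dw Y = (s + g) • D ∧ ∀ i, word Y i * (word X i)⁻¹ ∈ lcs (FreeGroup ℝ) k

theorem Rel.succ {D : ι → ι → ℝ} {k : ℕ} (h : Rel D (k + 1)) : Rel D (k + 2) := by
  intro κ hκ
  obtain ⟨m, hm2, hm⟩ : ∃ m : ℕ, 2 ≤ m ∧ 4 / κ ≤ m := by
    obtain ⟨m, hm⟩ := exists_nat_ge (4 / κ)
    exact ⟨max 2 m, le_max_left _ _, hm.trans (by exact_mod_cast le_max_right _ _)⟩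
  obtain ⟨X, Y, s, g, hg, hs, hsg, hX, hY, hw⟩ := h (κ / 8) (by linarith)
  set N := m ^ (k + 2) with hN
  have hNm : (m : ℝ) * m ≤ N := by
    have : m * m ≤ N := by
      rw [hN, ← pow_two]
      exact Nat.pow_le_pow_right (by omega) (by omega)
    exact_mod_cast this
  have hm2' : (2 : ℝ) ≤ m := by exact_mod_cast hm2
  have hmκ : 4 ≤ m * κ := by rwa [div_le_iff₀ hκ] at hm
  obtain ⟨X1, hX1, hX1'⟩ := exists_pow_list X N
  obtain ⟨Y1, hY1, hY1'⟩ := exists_pow_list Y N
  obtain ⟨X2, hX2, hX2'⟩ := exists_rep_list X m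
  obtain ⟨Y2, hY2, hY2'⟩ := exists_rep_list Y m
  have hNm2 : 2 * (m : ℝ) ≤ N := by nlinarith
  refine ⟨X1 ++ Y2, Y1 ++ X2, N * s + m * (s + g), (N - m) * g, ?_, ?_, ?_, ?_, ?_, fun i => ?_⟩
  · exact mul_pos (by linarith) hg
  · positivity
  · have h1 : (N : ℝ) * s ≤ N * (κ / 8 * g) := mul_le_mul_of_nonneg_left hsg (by positivity)
    have h2 : (m : ℝ) * s ≤ N * (κ / 8 * g) :=
      mul_le_mul (by linarith) hsg hs (by positivity)
    have h3 : (m : ℝ) * g ≤ N * (κ / 4 * g) := by
      have : (m : ℝ) * 4 ≤ N * κ := by nlinarith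
      nlinarith
    have h4 : (N : ℝ) * (κ / 2 * g) ≤ κ * ((N - m) * g) := by
      have : 0 ≤ κ * g * (N / 2 - m) := mul_nonneg (mul_pos hκ hg).le (by linarith)
      nlinarith
    nlinarith
  · rw [Dw_append, hX1', hY2', hX, hY, smul_smul, smul_smul, ← add_smul]
  · rw [Dw_append, hY1', hX2', hX, hY, smul_smul, smul_smul, ← add_smul]
    congr 1; ring
  · set φ : FreeGroup ℝ →* FreeGroup ℝ := FreeGroup.lift (fun x => FreeGroup.of x ^ m) with hφ
    have hpow := pow_lemma φ m (Set.range FreeGroup.of) (FreeGroup.closure_range_of ℝ)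
      (by rintro _ ⟨x, rfl⟩; simp [hφ]) (k + 1) _ (hw i)
    have hcen := lcs_central (k + 1) (hw i)
    set π := QuotientGroup.mk' (lcs (FreeGroup ℝ) (k + 1 + 1)) with hπ
    set z := word Y i * (word X i)⁻¹ with hz
    have hYz : word Y i = z * word X i := by simp [hz]
    rw [← QuotientGroup.eq_one_iff, ← QuotientGroup.mk'_apply]
    show π _ = 1
    rw [map_mul, map_inv, mul_inv_eq_one, word_append, word_append, hX1, hY1, hX2, hY2, hYz]
    simp only [map_mul, map_pow]
    rw [hpow, (hcen _).mul_pow, ← mul_assoc]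
    congr 1
    exact ((hcen _).pow_left _).eq

theorem Rel.all {D : ι → ι → ℝ} (h : Rel D 1) (k : ℕ) : Rel D k := by
  have : ∀ k, Rel D (k + 1) := fun k => by
    induction k with
    | zero => exact h
    | succ k ih => exact ih.succ
  intro κ hκ
  obtain ⟨X, Y, s, g, h1, h2, h3, h4, h5, h6⟩ := this k κ hκ
  exact ⟨X, Y, s, g, h1, h2, h3, h4, h5, fun i =>
    Subgroup.lowerCentralSeries_antitone _ (Nat.le_succ k) (h6 i)⟩

theorem Rel.scale {D : ι → ι → ℝ} {k : ℕ} (h : Rel D k) (b η : ℝ) (hb : 0 < b) (hη : 0 < η) :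
    ∃ s ≤ η, ∃ X Y : List (ι → ℝ), Dw X = s • D ∧ Dw Y = (s + b) • D ∧
      ∀ i, word Y i * (word X i)⁻¹ ∈ lcs (FreeGroup ℝ) k := by
  obtain ⟨X, Y, s, g, hg, hs, hsg, hX, hY, hw⟩ := h (η / b) (div_pos hη hb)
  set t := √(b / g) with ht
  have ht2 : t ^ 2 = b / g := Real.sq_sqrt (div_pos hb hg).le
  have hD : ∀ Z : List (ι → ℝ), Dw (Z.map fun c => t • c) = (b / g) • Dw Z := by
    intro Z
    funext i j
    simp only [Dw, List.map_map, Pi.smul_apply, smul_eq_mul, ← List.sum_map_mul_left]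
    congr 1
    refine List.map_congr_left fun c _ => ?_
    simp only [Function.comp, Pi.smul_apply, smul_eq_mul]
    rw [← ht2]; ring
  have hW : ∀ (Z : List (ι → ℝ)) i, word (Z.map fun c => t • c) i =
      FreeGroup.map (fun x => t * x) (word Z i) := by
    intro Z i
    simp only [word, List.map_map, map_list_prod]
    rfl
  refine ⟨b / g * s, ?_, X.map fun c => t • c, Y.map fun c => t • c, ?_, ?_, fun i => ?_⟩
  · calc b / g * s ≤ b / g * (η / b * g) := mul_le_mul_of_nonneg_left hsg (div_pos hb hg).le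
      _ = η := by field_simp
  · rw [hD, hX, smul_smul]
  · rw [hD, hY, smul_smul]
    congr 1; field_simp
  · rw [hW, hW, ← map_inv, ← map_mul]
    exact lcs_map _ k (hw i)

end Vale.Agent.P058
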