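import Vale.Agent.P058.Induction
import Vale.Agent.P058.Nilpotent

set_option autoImplicit false

open Set

namespace Vale.Agent.P058

attribute [local instance] Ultrafilter.mul Ultrafilter.semigroup

theorem continuous_pure_mul {S : Type} [Semigroup S] (s : S) :
    Continuous fun V : Ultrafilter S => (pure s : Ultrafilter S) * V :=
  ultrafilterBasis_is_basis.continuous_iff.2 <| Set.forall_mem_range.mpr fun A =>
    ultrafilter_isOpen_basic {t : S | s * t ∈ A}

theorem pure_mul_pure {S : Type} [Semigroup S] (s t : S) :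
    (pure s : Ultrafilter S) * pure t = pure (s * t) := rfl

variable {ι : Type}

/-- tuples of words read along column lists of a given weight -/
def TW (D : ι → ι → ℝ) : Set (ι → Ultrafilter (FreeMonoid ℝ)) :=
  {p | ∃ X : List (ι → ℝ), Dw X = D ∧ p = fun i => pure (FreeMonoid.ofList (X.map fun c => c i))}

theorem fam_TW : Fam (fun D : ι → ι → ℝ => closure (TW D)) where
  closed _ := isClosed_closure
  mul := by
    intro s t p q hp hq
    have h1 : ∀ p ∈ TW s, p * q ∈ closure (TW (s + t)) := by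
      rintro _ ⟨X, hX, rfl⟩
      have hcont : Continuous fun q : ι → Ultrafilter (FreeMonoid ℝ) =>
          (fun i => (pure (FreeMonoid.ofList (X.map fun c => c i)) : Ultrafilter _)) * q :=
        continuous_pi fun i => (continuous_pure_mul _).comp (continuous_apply i)
      refine map_mem_closure hcont hq ?_
      rintro _ ⟨Y, hY, rfl⟩
      refine ⟨X ++ Y, by rw [Dw_append, hX, hY], ?_⟩
      funext i
      simp only [Pi.mul_apply, pure_mul_pure, List.map_append, FreeMonoid.ofList_append]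
    have hcont : Continuous fun p : ι → Ultrafilter (FreeMonoid ℝ) => p * q :=
      continuous_pi fun i => (Ultrafilter.continuous_mul_left (q i)).comp (continuous_apply i)
    have := map_mem_closure hcont hp h1
    rwa [closure_closure] at this
  diag := by
    intro x
    have hx : x ∈ closure (range (pure : FreeMonoid ℝ → Ultrafilter (FreeMonoid ℝ))) :=
      denseRange_pure x
    have hcont : Continuous fun x : Ultrafilter (FreeMonoid ℝ) => (fun _ : ι => x) :=
      continuous_pi fun _ => continuous_id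
    refine map_mem_closure hcont hx ?_
    rintro _ ⟨w, rfl⟩
    refine ⟨(FreeMonoid.toList w).map fun a _ => a, ?_, ?_⟩
    · funext i j
      simp [Dw, Function.comp_def]
    · funext i
      simp [Function.comp_def]

theorem ramsey_lists [Fintype ι] [DecidableEq ι] (D : ι → ι → ℝ) (hR : Rel D 1)
    (hcol : ∀ i j, j ≠ i → ∃ C : ℝ, 0 < C ∧ ∀ x x' : ℝ, ∃ (c : ι → ℝ) (Z : List (ι → ℝ)),
      c i = x ∧ c j = x' ∧ (∀ z ∈ Z, z i = z j) ∧ Dw (c :: Z) = (C * (x - x') ^ 2) • D)
    (hNE : ∀ s : ℝ, 0 < s → ∃ X, Dw X = s • D) {κ : Type} [Finite κ] (col : List ℝ → κ) :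
    ∃ X : List (ι → ℝ), Dw X = D ∧ ∃ k, ∀ i, col (X.map fun c => c i) = k := by
  obtain ⟨G, _, ⟨S⟩⟩ := exists_setup (M := Ultrafilter (FreeMonoid ℝ))
    Ultrafilter.continuous_mul_left
  have hF := fam_TW (ι := ι)
  set H : (ι → ι → ℝ) → Set (ι → Ultrafilter (FreeMonoid ℝ)) := fun D => closure (TW D) with hH
  have hF' : Fam (fun s : ℝ => H (s • D)) :=
    ⟨fun s => hF.closed _, fun s t p q hp hq => by
      have := hF.mul _ _ _ _ hp hq
      rwa [← add_smul] at this, fun x => by rw [zero_smul]; exact hF.diag x⟩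
  let g : ℝ → G := fun x => S.r (pure (FreeMonoid.of x))
  have hgc : ∀ c : ι → ℝ, (fun i => g (c i)) ∈ GH S H (Dw [c]) := fun c =>
    GH_r S hF (subset_closure ⟨[c], rfl, rfl⟩)
  let φ : FreeGroup ℝ →* G := FreeGroup.lift fun x => g x * (g 0)⁻¹
  have hφ : ∀ X : List (ι → ℝ), (fun i => φ (word X i)) ∈ GH S H (Dw X) := by
    intro X
    induction X with
    | nil =>
      have : Dw ([] : List (ι → ℝ)) = 0 := by funext i j; simp [Dw]
      rw [this]
      simpa [word] using GH_diag S hF 1
    | cons c X ih =>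
      have := GH_mul S hF (GH_mul S hF (hgc c) (GH_diag S hF (g 0)⁻¹)) ih
      rw [add_zero, ← Dw_append] at this
      have e : (fun i => φ (word (c :: X) i)) =
          ((fun i => g (c i)) * fun _ => (g 0)⁻¹) * fun i => φ (word X i) := by
        funext i
        simp [word, φ]
      rw [e]
      exact this
  have hU0 : ∀ i j, j ≠ i → ∃ C : ℝ, 0 < C ∧ ∀ x x' : ℝ,
      ∃ u ∈ GH S (fun s : ℝ => H (s • D)) (C * (x - x') ^ 2), u i = g x * (g x')⁻¹ ∧ u j = 1 := by
    intro i j hij
    obtain ⟨C, hC, h⟩ := hcol i j hij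
    refine ⟨C, hC, fun x x' => ?_⟩
    obtain ⟨c, Z, hi, hj, hZ, hD⟩ := h x x'
    have hw : word Z i = word Z j := by
      simp only [word]
      congr 1
      exact List.map_congr_left fun z hz => by rw [hZ z hz]
    have := GH_mul S hF (GH_mul S hF (GH_mul S hF (hgc c) (GH_diag S hF (g x')⁻¹)) (hφ Z))
      (GH_diag S hF (φ (word Z j))⁻¹)
    rw [add_zero, add_zero, ← Dw_append, List.singleton_append, hD] at this
    refine ⟨_, this, ?_, ?_⟩
    · simp [hi, hw]
    · simp [hj]
  have hmain := core Ultrafilter.continuous_mul_left S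
    (fun k => (lcs (FreeGroup ℝ) k).map φ) (range fun x => g x * (g 0)⁻¹)
    (fun k => le_of_eq (Subgroup.map_commutator _ _ φ)) (by
      show (⊤ : Subgroup (FreeGroup ℝ)).map φ ≤ _
      rw [← FreeGroup.closure_range_of, MonoidHom.map_closure, ← range_comp]
      refine Subgroup.closure_mono ?_
      rintro _ ⟨x, rfl⟩
      exact ⟨x, by simp [φ]⟩) _ ι rfl (fun s : ℝ => H (s • D)) hF' ?_ ?_ ?_ ?_ 1 one_pos
  · -- conclusion
    obtain ⟨k, hk⟩ : ∃ k, {w : FreeMonoid ℝ | col (FreeMonoid.toList w) = k} ∈ S.c 1 := by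
      have : (⋃ k ∈ (univ : Set κ), {w : FreeMonoid ℝ | col (FreeMonoid.toList w) = k}) ∈ S.c 1 := by
        have e : (⋃ k ∈ (univ : Set κ), {w : FreeMonoid ℝ | col (FreeMonoid.toList w) = k}) =
            univ := by
          ext w; simp
        rw [e]; exact Filter.univ_mem
      obtain ⟨k, -, hk⟩ := (Ultrafilter.finite_biUnion_mem_iff finite_univ).1 this
      exact ⟨k, hk⟩
    have hopen : IsOpen (Set.pi univ fun _ : ι => {V : Ultrafilter (FreeMonoid ℝ) |
        {w : FreeMonoid ℝ | col (FreeMonoid.toList w) = k} ∈ V}) :=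
      isOpen_set_pi finite_univ fun _ _ => ultrafilter_isOpen_basic _
    have hmem : (fun _ : ι => S.c 1) ∈ closure (TW ((1 : ℝ) • D)) := hmain
    obtain ⟨_, hp, X, hX, rfl⟩ := mem_closure_iff.1 hmem _ hopen (fun i _ => hk)
    refine ⟨X, by rw [hX, one_smul], k, fun i => ?_⟩
    have := hp i trivial
    simpa using this
  · intro s hs
    obtain ⟨X, hX⟩ := hNE s hs
    refine ⟨fun i => φ (word X i), ?_⟩
    have := hφ X
    rwa [hX] at this
  · intro i j s hs
    by_cases hij : j = i
    · subst hij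
      obtain ⟨X, hX⟩ := hNE s hs
      have := GH_mul S hF (hφ X) (GH_diag S hF (φ (word X j))⁻¹)
      rw [add_zero, hX] at this
      exact ⟨_, this, by simp, by simp⟩
    · obtain ⟨C, hC, h⟩ := hU0 i j hij
      obtain ⟨u, hu, h1, h2⟩ := h (√(s / (2 * C))) 0
      obtain ⟨u', hu', h1', h2'⟩ := h 0 (√(s / (2 * C)))
      have := GH_mul S hF' hu hu'
      have e : C * (√(s / (2 * C)) - 0) ^ 2 + C * (0 - √(s / (2 * C))) ^ 2 = s := by
        rw [sub_zero, zero_sub, neg_sq, Real.sq_sqrt (by positivity)]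
        field_simp; ring
      rw [e] at this
      exact ⟨_, this, by simp [h1, h1'], by simp [h2, h2']⟩
  · rintro i j hij _ ⟨x, rfl⟩ η hη
    obtain ⟨C, hC, h⟩ := hU0 i j hij
    have hsub : ∀ (δ : ℝ) (k : ℕ), ∃ u ∈ GH S (fun s : ℝ => H (s • D)) (k * (C * δ ^ 2)),
        u i = g (k * δ) * (g 0)⁻¹ ∧ u j = 1 := by
      intro δ k
      induction k with
      | zero => exact ⟨fun _ => 1, by simpa using GH_diag S hF' 1, by simp, rfl⟩
      | succ k ih =>
        obtain ⟨u, hu, h1, h2⟩ := ih
        obtain ⟨u', hu', h1', h2'⟩ := h ((k + 1 : ℕ) * δ) (k * δ)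
        have := GH_mul S hF' hu' hu
        have e : C * ((k + 1 : ℕ) * δ - k * δ) ^ 2 + k * (C * δ ^ 2) =
            (k + 1 : ℕ) * (C * δ ^ 2) := by push_cast; ring
        rw [e] at this
        exact ⟨_, this, by simp [h1, h1'], by simp [h2, h2']⟩
    obtain ⟨k, hk⟩ := exists_nat_gt (C * x ^ 2 / η)
    have hk0 : (0 : ℝ) < k := lt_of_le_of_lt (by positivity) hk
    obtain ⟨u, hu, h1, h2⟩ := hsub (x / k) k
    refine ⟨_, ?_, u, hu, ?_, h2⟩
    · rw [div_lt_iff₀ hη] at hk
      have : (k : ℝ) * (C * (x / k) ^ 2) = C * x ^ 2 / k := by field_simp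
      rw [this, div_le_iff₀ hk0]
      linarith
    · rw [h1, mul_div_cancel₀ _ hk0.ne']
  · intro k b η hb hη
    obtain ⟨s, hs, X, Y, hX, hY, hw⟩ := (hR.all k).scale b η hb hη
    refine ⟨s, hs, fun i => φ (word X i), ?_, fun i => φ (word Y i), ?_, fun i => ?_⟩
    · have := hφ X
      rwa [hX] at this
    · have := hφ Y
      rwa [hY] at this
    · exact ⟨_, hw i, by simp⟩

end Vale.Agent.P058
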