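import Mathlib

set_option autoImplicit false

open Finset

namespace Vale.Agent.P058

/-- rational group ring -/
abbrev GR (A : Type) := AddMonoidAlgebra ℚ A

variable {A B : Type} [AddCommGroup A] [AddCommGroup B]

/-- group element inside the group ring -/
noncomputable def eg (a : A) : GR A := AddMonoidAlgebra.single a 1

/-- integration of a real function against an element of the group ring -/
noncomputable def Fn (f : A → ℝ) : GR A →+ ℝ :=
  AddMonoidAlgebra.liftNC (Rat.castHom ℝ).toAddMonoidHom fun a => f a.toAdd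

/-- augmentation ideal -/
noncomputable def aug (A : Type) [AddCommGroup A] : Ideal (GR A) :=
  Ideal.span (Set.range fun a : A => eg a - 1)

/-- induced ring map -/
noncomputable def mp (φ : A →+ B) : GR A →+* GR B := AddMonoidAlgebra.mapDomainRingHom ℚ φ

theorem eg_add (a b : A) : eg (a + b) = eg a * eg b := by
  simp [eg, AddMonoidAlgebra.single_mul_single]

theorem eg_zero : eg (0 : A) = 1 := rfl

theorem mp_single (φ : A →+ B) (a : A) (c : ℚ) :
    mp φ (AddMonoidAlgebra.single a c) = AddMonoidAlgebra.single (φ a) c := by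
  simp [mp]

theorem mp_eg (φ : A →+ B) (a : A) : mp φ (eg a) = eg (φ a) := mp_single φ a 1

theorem mp_smul (φ : A →+ B) (q : ℚ) (x : GR A) : mp φ (q • x) = q • mp φ x :=
  map_rat_smul (mp φ) q x

omit [AddCommGroup A] in
theorem Fn_single (f : A → ℝ) (a : A) (c : ℚ) : Fn f (AddMonoidAlgebra.single a c) = c * f a := by
  simp [Fn]

omit [AddCommGroup A] in
theorem Fn_eg (f : A → ℝ) (a : A) : Fn f (eg a) = f a := by simp [eg, Fn_single]

theorem Fn_one (f : A → ℝ) : Fn f 1 = f 0 := Fn_eg f 0

theorem Fn_smul (f : A → ℝ) (q : ℚ) (x : GR A) : Fn f (q • x) = q * Fn f x := by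
  rw [map_rat_smul, Rat.smul_def]

theorem Fn_mp (f : B → ℝ) (φ : A →+ B) (x : GR A) : Fn f (mp φ x) = Fn (fun a => f (φ a)) x := by
  induction x using AddMonoidAlgebra.induction_linear with
  | zero => simp
  | add x y hx hy => simp [hx, hy]
  | single a c => simp [mp_single, Fn_single]

omit [AddCommGroup A] in
theorem Fn_add_fun (f g : A → ℝ) (x : GR A) : Fn (fun a => f a + g a) x = Fn f x + Fn g x := by
  induction x using AddMonoidAlgebra.induction_linear with
  | zero => simp
  | add x y hx hy => simp [hx, hy]; ring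
  | single a c => simp [Fn_single]; ring

omit [AddCommGroup A] in
theorem Fn_const_mul (t : ℝ) (f : A → ℝ) (x : GR A) : Fn (fun a => t * f a) x = t * Fn f x := by
  induction x using AddMonoidAlgebra.induction_linear with
  | zero => simp
  | add x y hx hy => simp [hx, hy]; ring
  | single a c => simp [Fn_single]; ring

omit [AddCommGroup A] in
theorem Fn_sum_fun {κ : Type} (s : Finset κ) (f : κ → A → ℝ) (x : GR A) :
    Fn (fun a => ∑ k ∈ s, f k a) x = ∑ k ∈ s, Fn (f k) x := by
  induction x using AddMonoidAlgebra.induction_linear with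
  | zero => simp
  | add x y hx hy => simp [hx, hy, sum_add_distrib]
  | single a c => simp [Fn_single, mul_sum]

theorem Fn_mul_zero (x y : GR A) :
    Fn (fun _ => 1) (x * y) = Fn (fun _ => 1) x * Fn (fun _ => 1) y := by
  induction x using AddMonoidAlgebra.induction_linear with
  | zero => simp
  | add x x' hx hx' => simp [add_mul, hx, hx']
  | single a c =>
    induction y using AddMonoidAlgebra.induction_linear with
    | zero => simp
    | add y y' hy hy' => simp [mul_add, hy, hy']
    | single b c' => simp [AddMonoidAlgebra.single_mul_single, Fn_single]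

theorem Fn_mul_one (l : A →+ ℝ) (x y : GR A) :
    Fn l (x * y) = Fn l x * Fn (fun _ => 1) y + Fn (fun _ => 1) x * Fn l y := by
  induction x using AddMonoidAlgebra.induction_linear with
  | zero => simp
  | add x x' hx hx' => simp [add_mul, hx, hx']; ring
  | single a c =>
    induction y using AddMonoidAlgebra.induction_linear with
    | zero => simp
    | add y y' hy hy' => simp [mul_add, hy, hy']; ring
    | single b c' => simp [AddMonoidAlgebra.single_mul_single, Fn_single]; ring

theorem Fn_mul_two (l m : A →+ ℝ) (x y : GR A) :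
    Fn (fun a => l a * m a) (x * y) = Fn (fun a => l a * m a) x * Fn (fun _ => 1) y
      + Fn l x * Fn m y + Fn m x * Fn l y + Fn (fun _ => 1) x * Fn (fun a => l a * m a) y := by
  induction x using AddMonoidAlgebra.induction_linear with
  | zero => simp
  | add x x' hx hx' => simp [add_mul, hx, hx']; ring
  | single a c =>
    induction y using AddMonoidAlgebra.induction_linear with
    | zero => simp
    | add y y' hy hy' => simp [mul_add, hy, hy']; ring
    | single b c' => simp [AddMonoidAlgebra.single_mul_single, Fn_single]; ring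

theorem delta_mem (a : A) : eg a - 1 ∈ aug A := Ideal.subset_span ⟨a, rfl⟩

theorem aug_zero {x : GR A} (hx : x ∈ aug A) : Fn (fun _ => 1) x = 0 := by
  induction hx using Submodule.span_induction with
  | mem x hx => obtain ⟨a, rfl⟩ := hx; simp [Fn_eg, Fn_one]
  | zero => simp
  | add x y _ _ hx hy => simp [hx, hy]
  | smul r x _ hx => rw [smul_eq_mul, Fn_mul_zero, hx, mul_zero]

theorem aug_one (l : A →+ ℝ) {x : GR A} (hx : x ∈ aug A ^ 2) : Fn l x = 0 := by
  rw [pow_two] at hx
  refine Submodule.mul_induction_on hx (fun m hm n hn => ?_) (fun x y hx hy => by simp [hx, hy])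
  rw [Fn_mul_one, aug_zero hm, aug_zero hn]; simp

theorem aug_two (l m : A →+ ℝ) {x : GR A} (hx : x ∈ aug A ^ 3) :
    Fn (fun a => l a * m a) x = 0 := by
  rw [pow_succ] at hx
  refine Submodule.mul_induction_on hx (fun u hu n hn => ?_) (fun x y hx hy => by simp [hx, hy])
  rw [Fn_mul_two, aug_zero hn, aug_one l hu, aug_one m hu,
    aug_zero (Ideal.pow_le_self two_ne_zero hu)]
  simp

theorem mp_aug (φ : A →+ B) {x : GR A} (hx : x ∈ aug A) : mp φ x ∈ aug B := by
  induction hx using Submodule.span_induction with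
  | mem x hx => obtain ⟨a, rfl⟩ := hx; simpa [mp_eg] using delta_mem (φ a)
  | zero => simp
  | add x y _ _ hx hy => rw [map_add]; exact add_mem hx hy
  | smul r x _ hx => rw [smul_eq_mul, map_mul]; exact Ideal.mul_mem_left _ _ hx

/-- doubling map -/
def dbl (A : Type) [AddCommGroup A] : A →+ A := AddMonoidHom.mk' (fun a => a + a)
  (fun a b => by abel)

theorem mp_sub_self (φ : A →+ A) (x : GR A) : mp φ x - x ∈ aug A := by
  induction x using AddMonoidAlgebra.induction_linear with
  | zero => simp
  | add x y hx hy =>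
    have := add_mem hx hy
    rw [map_add]; convert this using 1; ring
  | single a c =>
    have e : mp φ (AddMonoidAlgebra.single a c) - AddMonoidAlgebra.single a c =
        AddMonoidAlgebra.single 0 c * ((eg (φ a) - 1) - (eg a - 1)) := by
      simp [mp_single, eg, mul_sub, AddMonoidAlgebra.single_mul_single]
    rw [e]
    exact Ideal.mul_mem_left _ _ (sub_mem (delta_mem _) (delta_mem _))

theorem adams_one {x : GR A} (hx : x ∈ aug A) : mp (dbl A) x - 2 * x ∈ aug A ^ 2 := by
  induction hx using Submodule.span_induction with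
  | mem x hx =>
    obtain ⟨a, rfl⟩ := hx
    have e : mp (dbl A) (eg a - 1) - 2 * (eg a - 1) = (eg a - 1) * (eg a - 1) := by
      rw [map_sub, map_one, mp_eg]
      show eg (a + a) - 1 - _ = _
      rw [eg_add]; ring
    rw [e, pow_two]
    exact Ideal.mul_mem_mul (delta_mem a) (delta_mem a)
  | zero => simp
  | add x y _ _ hx hy =>
    have := add_mem hx hy
    rw [map_add]; convert this using 1; ring
  | smul r x hx' hx =>
    have e : mp (dbl A) (r • x) - 2 * (r • x) =
        mp (dbl A) r * (mp (dbl A) x - 2 * x) + 2 * ((mp (dbl A) r - r) * x) := by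
      rw [smul_eq_mul, map_mul]; ring
    rw [e]
    refine add_mem (Ideal.mul_mem_left _ _ hx) (Ideal.mul_mem_left _ _ ?_)
    rw [pow_two]
    exact Ideal.mul_mem_mul (mp_sub_self _ r) hx'

theorem adams (j : ℕ) {x : GR A} (hx : x ∈ aug A ^ j) :
    mp (dbl A) x - 2 ^ j * x ∈ aug A ^ (j + 1) := by
  induction j generalizing x with
  | zero => simpa using mp_sub_self _ x
  | succ j ih =>
    rw [pow_succ] at hx
    refine Submodule.mul_induction_on hx (fun u hu n hn => ?_) (fun x y hx hy => ?_)
    · have e : mp (dbl A) (u * n) - 2 ^ (j + 1) * (u * n) =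
          (mp (dbl A) u - 2 ^ j * u) * mp (dbl A) n + 2 ^ j * (u * (mp (dbl A) n - 2 * n)) := by
        rw [map_mul]; ring
      rw [e]
      refine add_mem ?_ (Ideal.mul_mem_left _ _ ?_)
      · rw [pow_succ]
        exact Ideal.mul_mem_mul (ih hu) (mp_aug _ hn)
      · rw [show j + 1 + 1 = j + 2 from rfl, pow_add]
        exact Ideal.mul_mem_mul hu (adams_one hn)
    · have := add_mem hx hy
      rw [map_add]; convert this using 1; ring

theorem mp_comm (φ : A →+ B) (x : GR A) : mp φ (mp (dbl A) x) = mp (dbl B) (mp φ x) := by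
  induction x using AddMonoidAlgebra.induction_linear with
  | zero => simp
  | add x y hx hy => simp [hx, hy]
  | single a c => simp [mp_single, dbl]

theorem mp_surj (φ : A →+ B) (h : Function.Surjective φ) : Function.Surjective (mp φ) := by
  intro y
  induction y using AddMonoidAlgebra.induction_linear with
  | zero => exact ⟨0, by simp⟩
  | add x y hx hy =>
    obtain ⟨a, rfl⟩ := hx
    obtain ⟨b, rfl⟩ := hy
    exact ⟨a + b, by simp⟩
  | single b c =>
    obtain ⟨a, rfl⟩ := h b
    exact ⟨_, mp_single φ a c⟩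

/-- From a relation modulo the cube of the augmentation ideal to an exact relation. -/
theorem exact_relation {ι κ : Type} [Fintype ι] [DecidableEq ι] (ev : ι → A →+ ℝ)
    (gr : κ → A →+ ℝ) (hsurj : ∀ i, Function.Surjective (ev i))
    (hsep : ∀ i j, j ≠ i → ∀ y, ∃ h, ev i h = y ∧ ev j h = 0) (W₀ : GR A)
    (hW₀ : ∀ i, mp (ev i) W₀ ∈ aug ℝ ^ 3) :
    ∃ W : GR A, (∀ i, mp (ev i) W = 0) ∧
      ∀ α β, Fn (fun a => gr α a * gr β a) W = Fn (fun a => gr α a * gr β a) W₀ := by
  have step : ∀ j : ℕ, ∃ W : GR A, (∀ i, mp (ev i) W ∈ aug ℝ ^ (j + 3)) ∧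
      ∀ α β, Fn (fun a => gr α a * gr β a) W = Fn (fun a => gr α a * gr β a) W₀ := by
    intro j
    induction j with
    | zero => exact ⟨W₀, hW₀, fun _ _ => rfl⟩
    | succ j ih =>
      obtain ⟨W, h1, h2⟩ := ih
      refine ⟨((2 : ℚ) ^ (j + 3) - 4)⁻¹ • (((2 : ℚ) ^ (j + 3)) • W - mp (dbl A) W),
        fun i => ?_, fun α β => ?_⟩
      · rw [mp_smul, map_sub, mp_smul, mp_comm]
        have := adams (j + 3) (h1 i)
        refine Submodule.smul_of_tower_mem _ _ ?_
        have e : ((2 : ℚ) ^ (j + 3)) • mp (ev i) W = 2 ^ (j + 3) * mp (ev i) W := by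
          rw [Algebra.smul_def, map_pow, map_ofNat]
        rw [e, ← neg_sub]
        exact neg_mem this
      · rw [Fn_smul, map_sub, Fn_smul, Fn_mp, ← h2]
        have e : (fun a => gr α (dbl A a) * gr β (dbl A a)) = fun a => 4 * (gr α a * gr β a) := by
          funext a; simp [dbl]; ring
        rw [e, Fn_const_mul]
        have : (2 : ℝ) ^ (j + 3) - 4 ≠ 0 := by
          have : (1 : ℝ) ≤ 2 ^ j := one_le_pow₀ (by norm_num)
          rw [pow_add]; nlinarith
        push_cast
        field_simp
  obtain ⟨W, h1, h2⟩ := step (Fintype.card ι - 1)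
  let J : ι → Ideal (GR A) := fun j => Ideal.span ((fun a => eg a - 1) '' {a | ev j a = 0})
  have hJ0 : ∀ j, J j ≤ RingHom.ker (mp (ev j)) := by
    intro j
    rw [Ideal.span_le]
    rintro _ ⟨a, ha, rfl⟩
    have ha' : ev j a = 0 := ha
    simp [mp_eg, ha', eg_zero]
  have hJ1 : ∀ i j, j ≠ i → aug ℝ ≤ (J j).map (mp (ev i)) := by
    intro i j hij
    rw [aug, Ideal.span_le]
    rintro _ ⟨y, rfl⟩
    obtain ⟨h, h1, h2⟩ := hsep i j hij y
    have : mp (ev i) (eg h - 1) ∈ (J j).map (mp (ev i)) :=
      Ideal.mem_map_of_mem _ (Ideal.subset_span ⟨h, h2, rfl⟩)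
    simpa [mp_eg, h1] using this
  have hI1 : ∀ i, aug ℝ ≤ (aug A).map (mp (ev i)) := by
    intro i
    rw [aug, Ideal.span_le]
    rintro _ ⟨y, rfl⟩
    obtain ⟨h, h1⟩ := hsurj i y
    have : mp (ev i) (eg h - 1) ∈ (aug A).map (mp (ev i)) := Ideal.mem_map_of_mem _ (delta_mem h)
    simpa [mp_eg, h1] using this
  have hc : ∀ i, ∃ c ∈ (∏ j ∈ univ.erase i, J j) * aug A ^ 3, mp (ev i) c = mp (ev i) W := by
    intro i
    rw [← Ideal.mem_map_iff_of_surjective _ (mp_surj _ (hsurj i))]
    have : aug ℝ ^ (Fintype.card ι - 1 + 3) ≤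
        ((∏ j ∈ univ.erase i, J j) * aug A ^ 3).map (mp (ev i)) := by
      rw [Ideal.map_mul, Ideal.map_pow, pow_add]
      refine Ideal.mul_mono ?_ (Ideal.pow_right_mono (hI1 i) 3)
      have e : ∀ s : Finset ι, i ∉ s → aug ℝ ^ s.card ≤ (∏ j ∈ s, J j).map (mp (ev i)) := by
        intro s
        induction s using Finset.induction_on with
        | empty => intro _; simp [Ideal.map_top]
        | insert j s hj ih =>
          intro hi
          rw [prod_insert hj, card_insert_of_notMem hj, pow_succ', Ideal.map_mul]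
          exact Ideal.mul_mono (hJ1 i j fun h => hi (by simp [h])) (ih fun h => hi (by simp [h]))
      have := e (univ.erase i) (by simp)
      rwa [card_erase_of_mem (mem_univ i), card_univ] at this
    exact this (h1 i)
  choose c hc1 hc2 using hc
  refine ⟨W - ∑ i, c i, fun i => ?_, fun α β => ?_⟩
  · rw [map_sub, map_sum, sum_eq_single i, hc2, sub_self]
    · intro j _ hij
      have h3 : ∏ k ∈ univ.erase j, J k ≤ J i :=
        Ideal.prod_le_inf.trans (Finset.inf_le (by simp [hij.symm]))
      have h4 : c j ∈ ∏ k ∈ univ.erase j, J k := Ideal.mul_le_inf (hc1 j) |>.1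
      exact hJ0 i (h3 h4)
    · simp
  · rw [map_sub, map_sum, h2, sum_eq_zero, sub_zero]
    intro i _
    exact aug_two _ _ (Ideal.mul_le_inf (hc1 i)).2

end Vale.Agent.P058
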