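import Vale.Agent.P058.Semigroup

set_option autoImplicit false

open Set

namespace Vale.Agent.P058

section Groups

variable {G ι : Type} [Group G]

/-- elements all of whose conjugates have weight `q` -/
def Xi (K : ℝ → Set (ι → G)) (q : ℝ) : Set (ι → G) := {ξ | ∀ k, k * ξ * k⁻¹ ∈ K q}

def A0 (K : ℝ → Set (ι → G)) (η : ℝ) : Set (ι → G) :=
  {g | ∃ q ≤ η, ∃ ξ ∈ Xi K q, g * ξ ∈ K q}

def Tame (K : ℝ → Set (ι → G)) (η : ℝ) : Set (ι → G) := {g | g ∈ A0 K η ∧ g⁻¹ ∈ A0 K η}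

structure GFam (K : ℝ → Set (ι → G)) : Prop where
  mul : ∀ s t g h, g ∈ K s → h ∈ K t → g * h ∈ K (s + t)
  diag : ∀ x, (fun _ => x) ∈ K 0

variable {K : ℝ → Set (ι → G)}

theorem Xi.mem {q : ℝ} {ξ : ι → G} (h : ξ ∈ Xi K q) : ξ ∈ K q := by simpa using h 1

theorem Xi.conj {q : ℝ} {ξ : ι → G} (h : ξ ∈ Xi K q) (g : ι → G) : g⁻¹ * ξ * g ∈ Xi K q := by
  intro k
  have := h (k * g⁻¹)
  simpa [mul_assoc] using this

theorem Xi.mul (hK : GFam K) {q q' : ℝ} {ξ ξ' : ι → G} (h : ξ ∈ Xi K q) (h' : ξ' ∈ Xi K q') :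
    ξ * ξ' ∈ Xi K (q + q') := by
  intro k
  have := hK.mul _ _ _ _ (h k) (h' k)
  simpa [mul_assoc] using this

theorem Xi.of_single (hK : GFam K) {q : ℝ} {μ : ι → G} (i : ι) (h : μ ∈ K q)
    (h1 : ∀ j, j ≠ i → μ j = 1) : μ ∈ Xi K q := by
  intro k
  have := hK.mul _ _ _ _ (hK.mul _ _ _ _ (hK.diag (k i)) h) (hK.diag (k i)⁻¹)
  simp only [zero_add, add_zero] at this
  convert this using 1
  funext j
  by_cases hj : j = i
  · subst hj; simp
  · simp [h1 j hj]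

theorem Xi.one (hK : GFam K) : (1 : ι → G) ∈ Xi K 0 := by
  intro k
  rw [mul_one, mul_inv_cancel]
  exact hK.diag 1

theorem A0.mul (hK : GFam K) {η η' : ℝ} {g g' : ι → G} (h : g ∈ A0 K η) (h' : g' ∈ A0 K η') :
    g * g' ∈ A0 K (η + η') := by
  obtain ⟨q, hq, ξ, hξ, hg⟩ := h
  obtain ⟨q', hq', ξ', hξ', hg'⟩ := h'
  refine ⟨q + q', add_le_add hq hq', g'⁻¹ * ξ * g' * ξ', Xi.mul hK (Xi.conj hξ g') hξ', ?_⟩
  have := hK.mul _ _ _ _ hg hg'
  simpa [mul_assoc] using this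

theorem Tame.mul (hK : GFam K) {η η' : ℝ} {g g' : ι → G} (h : g ∈ Tame K η) (h' : g' ∈ Tame K η') :
    g * g' ∈ Tame K (η + η') := by
  refine ⟨A0.mul hK h.1 h'.1, ?_⟩
  rw [mul_inv_rev, add_comm]
  exact A0.mul hK h'.2 h.2

theorem Tame.inv {η : ℝ} {g : ι → G} (h : g ∈ Tame K η) : g⁻¹ ∈ Tame K η :=
  ⟨h.2, by rw [inv_inv]; exact h.1⟩

theorem Tame.diag (hK : GFam K) {η : ℝ} (hη : 0 ≤ η) (x : G) : (fun _ => x) ∈ Tame K η :=
  ⟨⟨0, hη, 1, Xi.one hK, by rw [mul_one]; exact hK.diag x⟩,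
    ⟨0, hη, 1, Xi.one hK, by rw [mul_one]; exact hK.diag x⁻¹⟩⟩

/-- values at `i` of tame tuples that vanish on `I` -/
def LI (hK : GFam K) (i : ι) (I : Finset ι) : Subgroup G where
  carrier := {y | ∀ η, 0 < η → ∃ u ∈ Tame K η, u i = y ∧ ∀ j ∈ I, u j = 1}
  one_mem' η hη := ⟨fun _ => 1, Tame.diag hK hη.le 1, rfl, fun _ _ => rfl⟩
  mul_mem' := by
    intro y y' hy hy' η hη
    obtain ⟨u, hu, rfl, h1⟩ := hy _ (half_pos hη)
    obtain ⟨u', hu', rfl, h1'⟩ := hy' _ (half_pos hη)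
    refine ⟨u * u', by simpa using Tame.mul hK hu hu', rfl, fun j hj => ?_⟩
    simp [h1 j hj, h1' j hj]
  inv_mem' := by
    intro y hy η hη
    obtain ⟨u, hu, rfl, h1⟩ := hy _ hη
    exact ⟨u⁻¹, Tame.inv hu, rfl, fun j hj => by simp [h1 j hj]⟩

theorem LI_commutator [DecidableEq ι] (hK : GFam K) (i : ι) (I J : Finset ι) :
    ⁅LI hK i I, LI hK i J⁆ ≤ LI hK i (I ∪ J) := by
  rw [Subgroup.commutator_le]
  intro y hy y' hy' η hη
  have h4 : 0 < η / 4 := by linarith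
  obtain ⟨u, hu, rfl, h1⟩ := hy _ h4
  obtain ⟨u', hu', rfl, h1'⟩ := hy' _ h4
  refine ⟨u * u' * u⁻¹ * u'⁻¹, ?_, rfl, fun j hj => ?_⟩
  · have := Tame.mul hK (Tame.mul hK (Tame.mul hK hu hu') (Tame.inv hu)) (Tame.inv hu')
    convert this using 2
    ring
  · rcases Finset.mem_union.1 hj with hj | hj
    · simp [h1 j hj]
    · simp [h1' j hj]

theorem Gamma_le_LI [DecidableEq ι] (hK : GFam K) (Γ : ℕ → Subgroup G)
    (hΓ : ∀ k, Γ (k + 1) ≤ ⁅Γ k, Γ 0⁆) (i : ι) (h0 : ∀ j, j ≠ i → Γ 0 ≤ LI hK i {j})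
    (I : Finset ι) (hI : i ∉ I) : Γ I.card ≤ LI hK i I := by
  induction I using Finset.induction_on with
  | empty =>
    intro y _ η hη
    exact ⟨fun _ => y, Tame.diag hK hη.le y, rfl, by simp⟩
  | insert j I hj ih =>
    rw [Finset.card_insert_of_notMem hj]
    have hij : j ≠ i := fun h => hI (by simp [h])
    have hiI : i ∉ I := fun h => hI (by simp [h])
    refine (hΓ _).trans ((Subgroup.commutator_mono (ih hiI) (h0 j hij)).trans ?_)
    have := LI_commutator hK i I {j}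
    rwa [Finset.union_comm, ← Finset.insert_eq] at this

/-- tuples that are tame at every scale -/
def ZT (hK : GFam K) : Subgroup (ι → G) where
  carrier := {g | ∀ η, 0 < η → g ∈ Tame K η}
  one_mem' η hη := Tame.diag hK hη.le 1
  mul_mem' := by
    intro y y' hy hy' η hη
    simpa using Tame.mul hK (hy _ (half_pos hη)) (hy' _ (half_pos hη))
  inv_mem' := fun hy η hη => Tame.inv (hy η hη)

theorem switch [Fintype ι] [DecidableEq ι] (hK : GFam K) (Γ : ℕ → Subgroup G)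
    (hΓ : ∀ k, Γ (k + 1) ≤ ⁅Γ k, Γ 0⁆) (h0 : ∀ i j, j ≠ i → Γ 0 ≤ LI hK i {j})
    (hSW : ∀ k b η, 0 < b → 0 < η → ∃ s ≤ η, ∃ X ∈ K s, ∃ Y ∈ K (s + b),
      ∀ i, Y i * (X i)⁻¹ ∈ Γ k)
    (hNE : ∀ s, 0 < s → (K s).Nonempty) (s b : ℝ) (hs : 0 < s) (hb : 0 < b) :
    ∃ g, g ∈ K s ∧ g ∈ K (s + b) := by
  obtain ⟨s', hs', X, hX, Y, hY, hXY⟩ := hSW (Fintype.card ι - 1) b (s / 3) hb (by linarith)
  have hz : Y * X⁻¹ ∈ ZT hK := by
    refine Subgroup.pi_mem_of_mulSingle_mem _ fun i η hη => ?_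
    have h1 := Gamma_le_LI hK Γ hΓ i (h0 i) (Finset.univ.erase i) (by simp)
    rw [Finset.card_erase_of_mem (Finset.mem_univ i), Finset.card_univ] at h1
    obtain ⟨u, hu, hui, huj⟩ := h1 (hXY i) η hη
    convert hu using 1
    funext j
    by_cases hj : j = i
    · subst hj; simp [hui]
    · rw [Pi.mulSingle_eq_of_ne hj, huj j (by simp [hj])]
  obtain ⟨q, hq, ξ, hξ, hP⟩ := (hz (s / 3) (by linarith)).2
  obtain ⟨π, hπ⟩ := hNE (s - (s' + q)) (by linarith)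
  refine ⟨X * (Y⁻¹ * ξ * Y) * π, ?_, ?_⟩
  · have := hK.mul _ _ _ _ (hK.mul _ _ _ _ hX (Xi.mem (Xi.conj hξ Y))) hπ
    simpa using this
  · have := hK.mul _ _ _ _ (hK.mul _ _ _ _ hP hY) hπ
    have e1 : s + b = q + (s' + b) + (s - (s' + q)) := by ring
    have e2 : X * (Y⁻¹ * ξ * Y) * π = (Y * X⁻¹)⁻¹ * ξ * Y * π := by simp [mul_assoc]
    rw [e1, e2]
    exact this

theorem multi_switch (hK : GFam K) (hNE : ∀ s, 0 < s → (K s).Nonempty)
    (hsw : ∀ s b, 0 < s → 0 < b → ∃ g, g ∈ K s ∧ g ∈ K (s + b)) (t : Finset ℝ)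
    (ht : ∀ b ∈ t, 0 < b) : ∀ s, 0 < s → ∃ g ∈ K s, ∀ b ∈ t, g ∈ K (s + b) := by
  classical
  induction t using Finset.induction_on with
  | empty =>
    intro s hs
    obtain ⟨g, hg⟩ := hNE s hs
    exact ⟨g, hg, by simp⟩
  | insert b t _ ih =>
    intro s hs
    obtain ⟨g, hg, hg'⟩ := ih (fun b hb => ht b (by simp [hb])) (s / 2) (half_pos hs)
    obtain ⟨g₂, h₁, h₂⟩ := hsw (s / 2) b (half_pos hs) (ht b (by simp))
    refine ⟨g * g₂, by simpa using hK.mul _ _ _ _ hg h₁, fun b' hb' => ?_⟩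
    rcases Finset.mem_insert.1 hb' with rfl | hb'
    · have := hK.mul _ _ _ _ hg h₂
      convert this using 2; ring
    · have := hK.mul _ _ _ _ (hg' b' hb') h₁
      convert this using 2; ring

end Groups

variable {M G : Type} [Semigroup M] [Group G] [TopologicalSpace M] [CompactSpace M] [T2Space M]

theorem exists_lt_finset (t : Finset {ε : ℝ // 0 < ε}) (σ : ℝ) (hσ : 0 < σ) :
    ∃ η, 0 < η ∧ η < σ ∧ ∀ ε ∈ t, η < ε.1 := by
  classical
  induction t using Finset.induction_on with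
  | empty => exact ⟨σ / 2, half_pos hσ, half_lt_self hσ, by simp⟩
  | insert a t _ ih =>
    obtain ⟨η, h1, h2, h3⟩ := ih
    refine ⟨min η (a.1 / 2), lt_min h1 (half_pos a.2), (min_le_left _ _).trans_lt h2, ?_⟩
    intro ε hε
    rcases Finset.mem_insert.1 hε with rfl | hε
    · exact (min_le_right _ _).trans_lt (half_lt_self ε.2)
    · exact (min_le_left _ _).trans_lt (h3 ε hε)

theorem core (hc : ∀ y : M, Continuous (· * y)) (S : Setup M G) (Γ : ℕ → Subgroup G)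
    (gens : Set G) (hΓ : ∀ k, Γ (k + 1) ≤ ⁅Γ k, Γ 0⁆) (hgens : Γ 0 ≤ Subgroup.closure gens)
    (n : ℕ) : ∀ (ι : Type) [Fintype ι] [DecidableEq ι], Fintype.card ι = n →
      ∀ (H : ℝ → Set (ι → M)), Fam H →
      (∀ s, 0 < s → (GH S H s).Nonempty) →
      (∀ i j s, 0 < s → ∃ π ∈ GH S H s, π i = 1 ∧ π j = 1) →
      (∀ i j, j ≠ i → ∀ y ∈ gens, ∀ η, 0 < η → ∃ s ≤ η, ∃ u ∈ GH S H s, u i = y ∧ u j = 1) →
      (∀ k b η, 0 < b → 0 < η → ∃ s ≤ η, ∃ X ∈ GH S H s, ∃ Y ∈ GH S H (s + b),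
        ∀ i, Y i * (X i)⁻¹ ∈ Γ k) →
      ∀ s, 0 < s → (1 : ι → G) ∈ GH S H s := by
  induction n using Nat.strong_induction_on with
  | _ n ih =>
  intro ι _ _ hcard H hH hNE hB hU hSW
  rcases isEmpty_or_nonempty ι with hι | hι
  · intro s hs
    obtain ⟨g, hg⟩ := hNE s hs
    rwa [Subsingleton.elim 1 g]
  by_cases hsmall : ∃ i j : ι, ∀ k, k = i ∨ k = j
  · obtain ⟨i, j, hij⟩ := hsmall
    intro s hs
    obtain ⟨π, hπ, h1, h2⟩ := hB i j s hs
    have : π = 1 := funext fun k => by rcases hij k with rfl | rfl <;> assumption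
    rwa [← this]
  push Not at hsmall
  have hK : GFam (GH S H) := ⟨fun s t g h hg hh => GH_mul S hH hg hh, GH_diag S hH⟩
  -- the induction hypothesis, with one coordinate removed
  have hIH : ∀ i₀ : ι, ∀ s, 0 < s → ∃ π ∈ GH S H s, ∀ k, k ≠ i₀ → π k = 1 := by
    intro i₀ s hs
    have hlt : Fintype.card {k // k ≠ i₀} < n := by
      rw [← hcard]
      exact Fintype.card_subtype_lt (x := i₀) (by simp)
    have hR := GH_restrict S hH (fun k => k ≠ i₀)
    have := ih _ hlt {k // k ≠ i₀} rfl _ (hH.restrict (fun k => k ≠ i₀)) ?_ ?_ ?_ ?_ s hs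
    · obtain ⟨g, hg, hg1⟩ := (hR _ _).1 this
      exact ⟨g, hg, fun k hk => hg1 ⟨k, hk⟩⟩
    · intro s hs
      obtain ⟨g, hg⟩ := hNE s hs
      exact ⟨fun k => g k.1, (hR _ _).2 ⟨g, hg, fun _ => rfl⟩⟩
    · intro i j s hs
      obtain ⟨g, hg, h1, h2⟩ := hB i.1 j.1 s hs
      exact ⟨fun k => g k.1, (hR _ _).2 ⟨g, hg, fun _ => rfl⟩, h1, h2⟩
    · intro i j hij y hy η hη
      obtain ⟨s, hs, g, hg, h1, h2⟩ := hU i.1 j.1 (fun h => hij (Subtype.ext h)) y hy η hη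
      exact ⟨s, hs, fun k => g k.1, (hR _ _).2 ⟨g, hg, fun _ => rfl⟩, h1, h2⟩
    · intro k b η hb hη
      obtain ⟨s, hs, X, hX, Y, hY, h⟩ := hSW k b η hb hη
      exact ⟨s, hs, fun k => X k.1, (hR _ _).2 ⟨X, hX, fun _ => rfl⟩, fun k => Y k.1,
        (hR _ _).2 ⟨Y, hY, fun _ => rfl⟩, fun i => h i.1⟩
  -- generators are values of tame tuples
  have h0 : ∀ i j, j ≠ i → Γ 0 ≤ LI hK i {j} := by
    intro i j hij
    refine hgens.trans ((Subgroup.closure_le _).2 fun y hy η hη => ?_)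
    obtain ⟨i₀, hi, hj⟩ := hsmall i j
    set σ := η / 2 with hσ
    have hσ0 : 0 < σ := half_pos hη
    let res : (ι → M) → ({k // k ≠ i₀} → M) := fun p k => p k.1
    have hres : Continuous res := continuous_pi fun k => continuous_apply k.1
    have hH' := hH.restrict (fun k => k ≠ i₀)
    have hR := GH_restrict S hH (fun k => k ≠ i₀)
    have hcpt : IsCompact (H σ ∩ {q | q i = S.c y} ∩ {q | q j = S.c 1}) :=
      (((hH.closed σ).inter (isClosed_eq (continuous_apply i) continuous_const)).inter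
        (isClosed_eq (continuous_apply j) continuous_const)).isCompact
    obtain ⟨q, ⟨⟨hq, hqi⟩, hqj⟩, hqε⟩ := hcpt.inter_iInter_nonempty
      (fun ε : {ε : ℝ // 0 < ε} => res ⁻¹' (res '' H ε.1))
      (fun ε => (hH'.closed ε.1).preimage hres) (fun t => by
        obtain ⟨η', h1, h2, h3⟩ := exists_lt_finset t σ hσ0
        obtain ⟨s, hs, u, hu, hui, huj⟩ := hU i j hij y hy η' h1
        obtain ⟨π, hπ, hπ1⟩ := hIH i₀ (σ - s) (by linarith)
        refine ⟨fun k => S.c ((u * π) k), ⟨⟨?_, ?_⟩, ?_⟩, ?_⟩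
        · have := GH_mul S hH hu hπ
          rw [add_sub_cancel] at this
          exact this
        · simp [hui, hπ1 i hi.symm]
        · simp [huj, hπ1 j hj.symm]
        · refine mem_iInter₂.2 fun ε hε => ?_
          obtain ⟨π', hπ', hπ1'⟩ := hIH i₀ (ε.1 - s) (by linarith [h3 ε hε])
          have := GH_mul S hH hu hπ'
          rw [add_sub_cancel] at this
          refine ⟨_, this, ?_⟩
          funext k
          simp [res, hπ1 k.1 k.2, hπ1' k.1 k.2])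
    let u : ι → G := fun k => S.r (q k)
    have hu : u ∈ GH S H σ := GH_r S hH hq
    have hui : u i = y := by
      have : q i = S.c y := hqi
      simp only [u, this, S.r_c]
    have huj : u j = 1 := by
      have : q j = S.c 1 := hqj
      simp only [u, this, S.r_c]
    have hinv := GH_inv hc S hH' (g := fun k => u k.1)
      (fun ε hε => GH_r S hH' (mem_iInter.1 hqε ⟨ε, hε⟩)) σ hσ0
    obtain ⟨u', hu', hu'e⟩ := (hR _ _).1 hinv
    have hμ : u * u' ∈ Xi (GH S H) (σ + σ) := by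
      refine Xi.of_single hK i₀ (GH_mul S hH hu hu') fun k hk => ?_
      have := hu'e ⟨k, hk⟩
      simp only [Pi.inv_apply] at this
      simp [this]
    obtain ⟨π, hπ, hπ1⟩ := hIH i₀ σ hσ0
    refine ⟨u * π⁻¹, ⟨⟨σ, by linarith, π, Xi.of_single hK i₀ hπ hπ1, by simpa using hu⟩,
      ⟨σ + σ, by linarith, u * u', hμ, ?_⟩⟩, ?_, ?_⟩
    · have := GH_mul S hH hπ hu'
      simpa [mul_assoc] using this
    · simp [hui, hπ1 i hi.symm]
    · intro k hk
      rw [Finset.mem_singleton.1 hk]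
      simp [huj, hπ1 j hj.symm]
  have hsw := switch hK Γ hΓ h0 hSW hNE
  obtain ⟨q, -, hq⟩ := isCompact_univ.inter_iInter_nonempty
    (fun ε : {ε : ℝ // 0 < ε} => H ε.1) (fun ε => hH.closed ε.1) (fun t => by
      obtain ⟨s, h1, -, h3⟩ := exists_lt_finset t 1 one_pos
      obtain ⟨g, -, hg⟩ := multi_switch hK hNE hsw (t.image fun ε => ε.1 - s) (by
        intro b hb
        obtain ⟨ε, hε, rfl⟩ := Finset.mem_image.1 hb
        linarith [h3 ε hε]) s h1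
      refine ⟨fun k => S.c (g k), mem_univ _, mem_iInter₂.2 fun ε hε => ?_⟩
      have := hg _ (Finset.mem_image_of_mem _ hε)
      rw [add_sub_cancel] at this
      exact this)
  have hg : ∀ ε, 0 < ε → (fun k => S.r (q k)) ∈ GH S H ε := fun ε hε =>
    GH_r S hH (mem_iInter.1 hq ⟨ε, hε⟩)
  intro s hs
  have := GH_mul S hH (hg _ (half_pos hs)) (GH_inv hc S hH hg _ (half_pos hs))
  simpa using this

end Vale.Agent.P058
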