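import Vale.Agent.P058.Extra

set_option autoImplicit false

open Finset TensorProduct

namespace Vale.Agent.P058

variable {ι : Type} {d : ℕ}

/-- the four points of the kite -/
noncomputable def kite : Fin 4 → Fin 2 → ℝ :=
  ![![-1, 0], ![1, 0], ![√2 - 1, √(1 - (√2 - 1) ^ 2)], ![√2 - 1, -√(1 - (√2 - 1) ^ 2)]]

theorem kite_sphere (i : Fin 4) : ∑ α, (kite i α - 0) ^ 2 = 1 := by
  have h2 : √2 * √2 = 2 := Real.mul_self_sqrt (by norm_num)
  have h1 : (1 : ℝ) ≤ √2 := Real.one_le_sqrt.2 (by norm_num)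
  have h3 : √2 ≤ 2 := by nlinarith
  have h : √(1 - (√2 - 1) ^ 2) ^ 2 = 1 - (√2 - 1) ^ 2 := Real.sq_sqrt (by nlinarith)
  fin_cases i <;> simp [kite, Fin.sum_univ_two, h]

theorem kite_rel {n : ℕ} (y : Fin 4 → Fin n → ℝ) (h : DD y = DD kite) (k : Fin n) :
    y 2 k + y 3 k = (y 0 k + y 1 k) - (√2 - 1) * (y 0 k - y 1 k) := by
  obtain ⟨B, h1, -⟩ := affine_extend kite y h
  have e : ∀ i, y i k = B 0 (Sum.inl k) + kite i 0 * B 1 (Sum.inl k) +
      kite i 1 * B 2 (Sum.inl k) := by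
    intro i
    have := h1 i (Sum.inl k)
    rw [Fin.sum_univ_three] at this
    simp only [Sum.elim_inl] at this
    rw [← this]
    simp only [pt, Fin.cons_zero, one_mul]
    rfl
  rw [e 0, e 1, e 2, e 3]
  simp [kite]
  ring

theorem kite_not_sub [Fintype ι] {n : ℕ} (x : ι → Fin n → ℝ)
    (htr : ∀ i j, ∃ τ : Equiv.Perm ι, (∀ k l, DD x (τ k) (τ l) = DD x k l) ∧ τ i = j)
    (f : Fin 4 → ι) (hf : ∀ i j, DD x (f i) (f j) = DD kite i j) : False := by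
  classical
  have h2 : √2 * √2 = 2 := Real.mul_self_sqrt (by norm_num)
  have h1 : (1 : ℝ) ≤ √2 := Real.one_le_sqrt.2 (by norm_num)
  have hne : ∃ k, x (f 0) k - x (f 1) k ≠ 0 := by
    by_contra hcon
    push Not at hcon
    have := hf 0 1
    simp only [DD, hcon] at this
    norm_num [kite, Fin.sum_univ_two] at this
  obtain ⟨k₀, hk₀⟩ := hne
  obtain ⟨lam, hlam⟩ := Module.Projective.exists_dual_eq_one ℚ hk₀
  let θ : ℝ →+ ℝ := AddMonoidHom.mk' (fun t => (lam (√2 * t) : ℝ) - √2 * lam t) fun s t => by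
    simp only [mul_add, map_add]; push_cast; ring
  have hθ : ∀ t, θ t = (lam (√2 * t) : ℝ) - √2 * lam t := fun _ => rfl
  have hθ2 : ∀ t, θ ((√2 - 1) * t) = -(√2 + 1) * θ t := by
    intro t
    have e : √2 * (√2 * t) = (2 : ℚ) • t := by
      rw [← mul_assoc, h2, Rat.smul_def]; norm_num
    rw [sub_mul, one_mul, map_sub, hθ (√2 * t), hθ t, e, map_smul, smul_eq_mul]
    push_cast
    linear_combination (-(lam t : ℝ)) * h2
  set G : Finset (Equiv.Perm ι) := {σ | ∀ k l, DD x (σ k) (σ l) = DD x k l} with hG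
  let z : Fin 4 → Equiv.Perm ι → Fin n → ℝ := fun i σ k => θ (x (σ (f i)) k)
  have hz : ∀ σ ∈ G, ∀ k, z 2 σ k + z 3 σ k = (z 0 σ k + z 1 σ k) + (√2 + 1) * (z 0 σ k - z 1 σ k) := by
    intro σ hσ k
    have := kite_rel (fun i => x (σ (f i))) (by
      funext i j
      rw [← hf, ← (mem_filter.1 hσ).2]; rfl) k
    simp only [z]
    rw [← map_add, this, map_sub, hθ2, map_add, map_sub]
    ring
  have hN : ∀ i j, ∑ σ ∈ G, ∑ k, z i σ k ^ 2 = ∑ σ ∈ G, ∑ k, z j σ k ^ 2 := fun i j =>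
    sum_symm (DD x) htr (fun i => ∑ k, θ (x i k) ^ 2) (f i) (f j)
  have hpt : ∀ σ ∈ G, ∀ k, (2 + 2 * √2) * (z 0 σ k - z 1 σ k) ^ 2 ≤
      2 * z 2 σ k ^ 2 + 2 * z 3 σ k ^ 2 - (2 + 2 * (√2 + 1)) * z 0 σ k ^ 2 -
        (2 - 2 * (√2 + 1)) * z 1 σ k ^ 2 := by
    intro σ hσ k
    have e := hz σ hσ k
    have e2 : (z 2 σ k + z 3 σ k) ^ 2 =
        ((z 0 σ k + z 1 σ k) + (√2 + 1) * (z 0 σ k - z 1 σ k)) ^ 2 := by rw [e]
    have e3 := sq_nonneg (z 2 σ k - z 3 σ k)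
    have e4 : (√2 + 1) ^ 2 * (z 0 σ k - z 1 σ k) ^ 2 = (3 + 2 * √2) * (z 0 σ k - z 1 σ k) ^ 2 := by
      congr 1; linear_combination h2
    nlinarith
  have hsum := sum_le_sum fun σ hσ => sum_le_sum (s := univ) fun k _ => hpt σ hσ k
  simp only [sum_sub_distrib, sum_add_distrib, ← mul_sum] at hsum
  rw [hN 2 0, hN 3 0, hN 1 0] at hsum
  have h0 : ∑ σ ∈ G, ∑ k, (z 0 σ k - z 1 σ k) ^ 2 ≤ 0 := by
    have hp : 0 < 2 + 2 * √2 := by linarith
    by_contra hcon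
    push Not at hcon
    nlinarith [mul_pos hp hcon]
  have h1G : (1 : Equiv.Perm ι) ∈ G := by simp [hG]
  have h3 := single_le_sum (f := fun σ => ∑ k, (z 0 σ k - z 1 σ k) ^ 2)
    (fun σ _ => sum_nonneg fun k _ => sq_nonneg _) h1G
  have h4 := single_le_sum (f := fun k => (z 0 1 k - z 1 1 k) ^ 2)
    (fun k _ => sq_nonneg _) (mem_univ k₀)
  have h5 : z 0 1 k₀ - z 1 1 k₀ = 0 :=
    pow_eq_zero_iff two_ne_zero |>.1 (le_antisymm (by linarith) (sq_nonneg _))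
  have h6 : θ (x (f 0) k₀ - x (f 1) k₀) = 0 := by rw [map_sub]; exact h5
  rw [hθ, hlam] at h6
  exact irrational_sqrt_two ⟨lam (√2 * (x (f 0) k₀ - x (f 1) k₀)), by
    push_cast at h6; linarith⟩

end Vale.Agent.P058
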