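import Vale.Agent.P058.Suff

set_option autoImplicit false

open Finset TensorProduct

namespace Vale.Agent.P058

variable {ι : Type} {d : ℕ}

theorem gram_extend {E : Type} [NormedAddCommGroup E] [InnerProductSpace ℝ E]
    [FiniteDimensional ℝ E] [Fintype ι] (u y : ι → E)
    (h : ∀ i j, inner ℝ (u i) (u j) = inner ℝ (y i) (y j)) :
    ∃ L : E →ₗᵢ[ℝ] E, ∀ i, L (u i) = y i := by
  classical
  let Tu := Fintype.linearCombination ℝ u
  let Ty := Fintype.linearCombination ℝ y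
  have hn : ∀ c, ‖Ty c‖ = ‖Tu c‖ := by
    intro c
    have : inner ℝ (Ty c) (Ty c) = inner ℝ (Tu c) (Tu c) := by
      simp only [Tu, Ty, Fintype.linearCombination_apply, sum_inner, inner_sum, inner_smul_left,
        inner_smul_right, h]
    rw [real_inner_self_eq_norm_sq, real_inner_self_eq_norm_sq] at this
    exact (pow_left_inj₀ (norm_nonneg _) (norm_nonneg _) two_ne_zero).1 this
  obtain ⟨σ, hσ⟩ := LinearMap.exists_rightInverse_of_surjective Tu.rangeRestrict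
    Tu.range_rangeRestrict
  have hσ' : ∀ s, Tu (σ s) = s := fun s => congrArg Subtype.val (LinearMap.congr_fun hσ s)
  let L₀ : LinearMap.range Tu →ₗᵢ[ℝ] E := ⟨Ty ∘ₗ σ, fun s => by
    rw [LinearMap.comp_apply, hn, hσ']; rfl⟩
  refine ⟨L₀.extend, fun i => ?_⟩
  have hu : Tu (Pi.single i 1) = u i := by simp [Tu]
  have hy : Ty (Pi.single i 1) = y i := by simp [Ty]
  have := L₀.extend_apply ⟨u i, _, hu⟩
  rw [this]
  show Ty (σ ⟨u i, _, hu⟩) = y i
  rw [← sub_eq_zero, ← hy, ← map_sub, ← norm_eq_zero, hn, map_sub, hσ', hu, sub_self, norm_zero]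

theorem affine_extend [Fintype ι] [Nonempty ι] {n : ℕ} (a : ι → Fin d → ℝ) (x : ι → Fin n → ℝ)
    (h : DD x = DD a) : ∃ B : Fin (d + 1) → Fin n ⊕ Fin d → ℝ,
      (∀ i k, ∑ α, pt (a i) α * B α k = Sum.elim (x i) 0 k) ∧
        ∀ α β : Fin d, ∑ k, B α.succ k * B β.succ k = if α = β then 1 else 0 := by
  classical
  let o : ι := Classical.arbitrary ι
  have pol : ∀ {m : ℕ} (z : ι → Fin m → ℝ) (i j : ι),
      ∑ k, (z j k - z o k) * (z i k - z o k) = (DD z i o + DD z j o - DD z i j) / 2 := by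
    intro m z i j
    simp only [DD]
    rw [← sum_add_distrib, ← sum_sub_distrib, sum_div]
    exact sum_congr rfl fun _ _ => by ring
  obtain ⟨L, hL⟩ := gram_extend (E := EuclideanSpace ℝ (Fin n ⊕ Fin d))
    (fun i => WithLp.toLp 2 (Sum.elim 0 (a i - a o)))
    (fun i => WithLp.toLp 2 (Sum.elim (x i - x o) 0)) (fun i j => by
      simp only [PiLp.inner_apply, Fintype.sum_sum_type, Sum.elim_inl, Sum.elim_inr, Pi.zero_apply,
        sum_const_zero, zero_add, add_zero, Pi.sub_apply, RCLike.inner_apply,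
        conj_trivial, mul_zero]
      rw [pol, pol, h])
  let U : Fin d → Fin n ⊕ Fin d → ℝ := fun α k => L (EuclideanSpace.single (Sum.inr α) 1) k
  refine ⟨Fin.cons (fun k => Sum.elim (x o) 0 k - ∑ α, a o α * U α k) U, fun i k => ?_,
    fun α β => ?_⟩
  · have e : (WithLp.toLp 2 (Sum.elim 0 (a i - a o)) : EuclideanSpace ℝ (Fin n ⊕ Fin d)) =
        ∑ α, (a i α - a o α) • EuclideanSpace.single (Sum.inr α) 1 := by
      ext k
      rcases k with k | k <;> simp [Pi.single_apply]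
    have h1 := congrArg (fun v : EuclideanSpace ℝ (Fin n ⊕ Fin d) => v k) (hL i)
    simp only [e, map_sum, map_smul] at h1
    have h2 : ∑ α, (a i α - a o α) * U α k = Sum.elim (x i - x o) 0 k := by
      rw [← h1]; simp [U]
    simp only [pt, Fin.sum_univ_succ, Fin.cons_zero, Fin.cons_succ, one_mul]
    simp only [sub_mul, sum_sub_distrib] at h2
    rcases k with k | k
    · simp only [Sum.elim_inl, Pi.sub_apply] at h2 ⊢; linarith
    · simp only [Sum.elim_inr, Pi.zero_apply] at h2 ⊢; linarith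
  · have h1 := L.inner_map_map (EuclideanSpace.single (Sum.inr β) 1)
      (EuclideanSpace.single (Sum.inr α) 1)
    rw [EuclideanSpace.inner_single_left, PiLp.inner_apply] at h1
    simpa [U, Pi.single_apply, eq_comm (a := β)] using h1

theorem copy [Fintype ι] [Nonempty ι] {n : ℕ} (a : ι → Fin d → ℝ) (x : ι → Fin n → ℝ)
    (h : DD x = DD a) : ∃ Q : Fin (d + 1) → Fin (d + 1) → ℝ ⊗[ℚ] ℝ,
      (∀ i, ∑ α, ∑ β, (pt (a i) α ⊗ₜ[ℚ] pt (a i) β) * Q α β = ∑ k, x i k ⊗ₜ[ℚ] x i k) ∧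
        ∀ α β : Fin d, LinearMap.mul' ℚ ℝ (Q α.succ β.succ) = if α = β then 1 else 0 := by
  obtain ⟨B, h1, h2⟩ := affine_extend a x h
  refine ⟨fun α β => ∑ k, B α k ⊗ₜ[ℚ] B β k, fun i => ?_, fun α β => ?_⟩
  · have e : ∑ k, x i k ⊗ₜ[ℚ] x i k =
        ∑ k : Fin n ⊕ Fin d, Sum.elim (x i) 0 k ⊗ₜ[ℚ] Sum.elim (x i) 0 k := by
      simp [Fintype.sum_sum_type]
    simp only [e, ← h1, sum_tmul, tmul_sum, mul_sum, Algebra.TensorProduct.tmul_mul_tmul]
    rw [sum_comm (s := (univ : Finset (Fin n ⊕ Fin d))), sum_comm]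
    exact sum_congr rfl fun α _ => sum_comm
  · simp only [map_sum, LinearMap.mul'_apply, h2]

theorem floor_trick {N : ℕ} {u v : ℝ}
    (h : ((⌊N * u⌋ : ℤ) : ZMod (2 * N)) = ((⌊N * v⌋ : ℤ) : ZMod (2 * N))) :
    ∃ z : ℤ, |N * (u - v) - 2 * N * z| < 1 := by
  obtain ⟨z, hz⟩ := (ZMod.intCast_eq_intCast_iff_dvd_sub _ _ _).1 h.symm
  refine ⟨z, ?_⟩
  have h1 : ((⌊N * u⌋ : ℤ) : ℝ) - (⌊N * v⌋ : ℤ) = 2 * N * z := by exact_mod_cast hz
  have := Int.floor_le (N * u)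
  have := Int.lt_floor_add_one (N * u)
  have := Int.floor_le (N * v)
  have := Int.lt_floor_add_one (N * v)
  rw [abs_lt]; constructor <;> linarith

theorem ram_finite {a : ι → Fin d → ℝ} (h : Ram a) (κ : Type) [Finite κ] :
    ∃ n : ℕ, ∀ c : (Fin n → ℝ) → κ, ∃ x : ι → Fin n → ℝ, DD x = DD a ∧ ∀ i j, c (x i) = c (x j) := by
  obtain ⟨r, ⟨e⟩⟩ := Finite.exists_equiv_fin κ
  obtain ⟨n, -, hn⟩ := h (r + 2) (by omega)
  refine ⟨n, fun c => ?_⟩
  obtain ⟨x, hx, k, hk⟩ := hn fun y => Fin.castAdd 2 (e (c y))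
  exact ⟨x, hx, fun i j => e.injective (Fin.castAdd_injective _ _ ((hk i).trans (hk j).symm))⟩

/-- the linear map recording the values of the tensor quadric at the points -/
noncomputable def LL (a : ι → Fin d → ℝ) :
    (Fin (d + 1) → Fin (d + 1) → ℝ ⊗[ℚ] ℝ) →ₗ[ℚ] (ι → ℝ ⊗[ℚ] ℝ) where
  toFun P := fun i => ∑ α, ∑ β, (pt (a i) α ⊗ₜ[ℚ] pt (a i) β) * P α β
  map_add' P Q := by funext i; simp [mul_add, sum_add_distrib]
  map_smul' q P := by funext i; simp [smul_sum]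

/-- the spatial block after multiplication -/
noncomputable def MM (d : ℕ) :
    (Fin (d + 1) → Fin (d + 1) → ℝ ⊗[ℚ] ℝ) →ₗ[ℚ] (Fin d → Fin d → ℝ) where
  toFun P := fun α β => LinearMap.mul' ℚ ℝ (P α.succ β.succ)
  map_add' P Q := by funext α β; simp
  map_smul' q P := by funext α β; simp

theorem ram_crit [Fintype ι] [Nonempty ι] {a : ι → Fin d → ℝ} (h : Ram a) : Crit a := by
  classical
  by_contra hcon
  obtain ⟨Q₀, hQ₀, hQ₀'⟩ := copy a a rfl
  have hnot : LL a Q₀ ∉ (LinearMap.ker (MM d)).map (LL a) := by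
    rintro ⟨K, hK, e⟩
    refine hcon ⟨Q₀ - K, fun i => ?_, fun α β => ?_⟩
    · have : LL a (Q₀ - K) = 0 := by rw [map_sub, e, sub_self]
      exact congrFun this i
    · have h1 : LinearMap.mul' ℚ ℝ (K α.succ β.succ) = 0 := congrFun (congrFun hK α) β
      rw [Pi.sub_apply, Pi.sub_apply, map_sub, hQ₀', h1, sub_zero]
  obtain ⟨φ, hφ1, hφ0⟩ := Submodule.exists_dual_map_eq_bot_of_notMem hnot inferInstance
  have hφK : ∀ K, MM d K = 0 → φ (LL a K) = 0 := by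
    intro K hK
    have : φ (LL a K) ∈ ((LinearMap.ker (MM d)).map (LL a)).map φ := ⟨_, ⟨K, hK, rfl⟩, rfl⟩
    rwa [hφ0] at this
  let ψ : ι → ℝ ⊗[ℚ] ℝ → ℚ := fun i t => φ (Pi.single i t) / φ (LL a Q₀)
  have hψ : ∀ t : ι → ℝ ⊗[ℚ] ℝ, ∑ i, ψ i (t i) = φ t / φ (LL a Q₀) := by
    intro t
    rw [← sum_div, ← map_sum, univ_sum_single]
  set N := Fintype.card ι + 1 with hN
  obtain ⟨n, hn⟩ := ram_finite h (ι → ZMod (2 * N))
  obtain ⟨x, hx, hc⟩ := hn fun y i => ((⌊(N : ℝ) * ψ i (∑ k, y k ⊗ₜ[ℚ] y k)⌋ : ℤ) : ZMod (2 * N))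
  let o : ι := Classical.arbitrary ι
  choose z hz using fun i => floor_trick (N := N) (congrFun (hc i o) i)
  obtain ⟨Q, hQ, hQ'⟩ := copy a x hx
  have s1 : ∑ i, ψ i (∑ k, x i k ⊗ₜ[ℚ] x i k) = 1 := by
    rw [hψ, div_eq_one_iff_eq hφ1, ← sub_eq_zero, ← map_sub]
    have : (fun i => ∑ k, x i k ⊗ₜ[ℚ] x i k) = LL a Q := by funext i; exact (hQ i).symm
    rw [this, ← map_sub]
    refine hφK _ ?_
    rw [map_sub, sub_eq_zero]
    funext α β
    exact (hQ' α β).trans (hQ₀' α β).symm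
  have s0 : ∀ t, ∑ i, ψ i t = 0 := by
    intro t
    rw [hψ fun _ => t]
    have : (fun _ : ι => t) = LL a (Pi.single 0 (Pi.single 0 t)) := by
      funext i
      simp [LL, pt, Fin.sum_univ_succ, ← Algebra.TensorProduct.one_def]
    rw [this, hφK, zero_div]
    funext α β
    simp [MM]
  have s2 : ∑ i, ((N : ℝ) * (ψ i (∑ k, x i k ⊗ₜ[ℚ] x i k) - ψ i (∑ k, x o k ⊗ₜ[ℚ] x o k)) -
      2 * N * z i) = N * ((1 - 2 * ∑ i, z i : ℤ) : ℝ) := by
    rw [sum_sub_distrib, ← mul_sum, sum_sub_distrib, ← Rat.cast_sum, ← Rat.cast_sum, s1, s0,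
      ← mul_sum]
    push_cast; ring
  have s3 := (abs_sum_le_sum_abs _ _).trans (sum_le_sum (s := univ) fun i _ => (hz i).le)
  rw [s2, sum_const, card_univ, nsmul_eq_mul, mul_one, abs_mul, Nat.abs_cast, ← Int.cast_abs] at s3
  have s4 : (1 : ℝ) ≤ (|1 - 2 * ∑ i, z i| : ℤ) := by
    exact_mod_cast Int.one_le_abs (by omega)
  have s5 : (N : ℝ) = Fintype.card ι + 1 := by rw [hN]; push_cast; ring
  nlinarith [mul_le_mul_of_nonneg_left s4 (Nat.cast_nonneg (α := ℝ) N)]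

end Vale.Agent.P058
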