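import Vale.Agent.P058.GroupRing

set_option autoImplicit false

open Finset

namespace Vale.Agent.P058

variable {A : Type} [AddCommGroup A]

/-- elements with nonnegative coefficients -/
noncomputable def Pos (A : Type) : AddSubmonoid (GR A) :=
  AddSubmonoid.closure {x | ∃ (a : A) (c : ℚ), 0 ≤ c ∧ x = AddMonoidAlgebra.single a c}

omit [AddCommGroup A] in
theorem pos_single (a : A) {c : ℚ} (hc : 0 ≤ c) : AddMonoidAlgebra.single a c ∈ Pos A :=
  AddSubmonoid.subset_closure ⟨a, c, hc, rfl⟩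

omit [AddCommGroup A] in
theorem pos_eg (a : A) : eg a ∈ Pos A := pos_single a zero_le_one

theorem pos_one : (1 : GR A) ∈ Pos A := pos_eg 0

theorem pos_mul {x y : GR A} (hx : x ∈ Pos A) (hy : y ∈ Pos A) : x * y ∈ Pos A := by
  induction hx using AddSubmonoid.closure_induction with
  | mem x hx =>
    obtain ⟨a, c, hc, rfl⟩ := hx
    induction hy using AddSubmonoid.closure_induction with
    | mem y hy =>
      obtain ⟨b, c', hc', rfl⟩ := hy
      rw [AddMonoidAlgebra.single_mul_single]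
      exact pos_single _ (mul_nonneg hc hc')
    | zero => simp
    | add y y' _ _ h h' => rw [mul_add]; exact add_mem h h'
  | zero => simp
  | add x x' _ _ h h' => rw [add_mul]; exact add_mem h h'

theorem pos_smul {q : ℚ} (hq : 0 ≤ q) {x : GR A} (hx : x ∈ Pos A) : q • x ∈ Pos A := by
  induction hx using AddSubmonoid.closure_induction with
  | mem x hx =>
    obtain ⟨a, c, hc, rfl⟩ := hx
    rw [AddMonoidAlgebra.smul_single]
    exact pos_single _ (mul_nonneg hq hc)
  | zero => simp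
  | add x x' _ _ h h' => rw [smul_add]; exact add_mem h h'

theorem pos_pow {x : GR A} (hx : x ∈ Pos A) (n : ℕ) : x ^ n ∈ Pos A := by
  induction n with
  | zero => simpa using pos_one
  | succ n ih => rw [pow_succ]; exact pos_mul ih hx

theorem pos_prod {κ : Type} (s : Finset κ) (f : κ → GR A) (h : ∀ k ∈ s, f k ∈ Pos A) :
    ∏ k ∈ s, f k ∈ Pos A :=
  prod_induction f (· ∈ Pos A) (fun _ _ => pos_mul) pos_one h

omit [AddCommGroup A] in
theorem Fn_mono {f g : A → ℝ} (h : ∀ a, f a ≤ g a) {x : GR A} (hx : x ∈ Pos A) :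
    Fn f x ≤ Fn g x := by
  induction hx using AddSubmonoid.closure_induction with
  | mem x hx =>
    obtain ⟨a, c, hc, rfl⟩ := hx
    rw [Fn_single, Fn_single]
    exact mul_le_mul_of_nonneg_left (h a) (by exact_mod_cast hc)
  | zero => simp
  | add x x' _ _ h h' => rw [map_add, map_add]; exact add_le_add h h'

omit [AddCommGroup A] in
theorem Fn_nonneg {f : A → ℝ} (h : ∀ a, 0 ≤ f a) {x : GR A} (hx : x ∈ Pos A) : 0 ≤ Fn f x := by
  induction hx using AddSubmonoid.closure_induction with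
  | mem x hx =>
    obtain ⟨a, c, hc, rfl⟩ := hx
    rw [Fn_single]
    exact mul_nonneg (by exact_mod_cast hc) (h a)
  | zero => simp
  | add x x' _ _ h h' => rw [map_add]; exact add_nonneg h h'

theorem Fn_submul {w : A → ℝ} (hw : ∀ a b, w (a + b) ≤ w a * w b) {x y : GR A}
    (hx : x ∈ Pos A) (hy : y ∈ Pos A) : Fn w (x * y) ≤ Fn w x * Fn w y := by
  induction hx using AddSubmonoid.closure_induction with
  | mem x hx =>
    obtain ⟨a, c, hc, rfl⟩ := hx
    induction hy using AddSubmonoid.closure_induction with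
    | mem y hy =>
      obtain ⟨b, c', hc', rfl⟩ := hy
      rw [AddMonoidAlgebra.single_mul_single, Fn_single, Fn_single, Fn_single]
      have h1 : (0 : ℝ) ≤ c := by exact_mod_cast hc
      have h2 : (0 : ℝ) ≤ c' := by exact_mod_cast hc'
      have := mul_le_mul_of_nonneg_left (hw a b) (mul_nonneg h1 h2)
      push_cast
      linarith
    | zero => simp
    | add y y' _ _ h h' => rw [mul_add, map_add, map_add, mul_add]; exact add_le_add h h'
  | zero => simp
  | add x x' _ _ h h' => rw [add_mul, map_add, map_add, add_mul]; exact add_le_add h h'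

theorem pos_list {x : GR A} (hx : x ∈ Pos A) :
    ∃ N : ℕ, 0 < N ∧ ∀ k : ℕ, ∃ X : List A, ((N * k : ℕ) : ℚ) • x = (X.map eg).sum := by
  induction hx using AddSubmonoid.closure_induction with
  | mem x hx =>
    obtain ⟨a, c, hc, rfl⟩ := hx
    refine ⟨c.den, c.den_pos, fun k => ⟨List.replicate (c.num.toNat * k) a, ?_⟩⟩
    rw [List.map_replicate, List.sum_replicate, eg, AddMonoidAlgebra.smul_single,
      AddMonoidAlgebra.smul_single]
    congr 1
    have h1 : ((c.num.toNat : ℕ) : ℚ) = c.num := by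
      have : ((c.num.toNat : ℕ) : ℤ) = c.num := Int.toNat_of_nonneg (Rat.num_nonneg.2 hc)
      exact_mod_cast this
    have h2 := Rat.mul_den_eq_num c
    simp only [smul_eq_mul, nsmul_eq_mul, mul_one]
    push_cast
    rw [h1, ← h2]; ring
  | zero => exact ⟨1, one_pos, fun k => ⟨[], by simp⟩⟩
  | add x x' _ _ h h' =>
    obtain ⟨N, hN, h⟩ := h
    obtain ⟨N', hN', h'⟩ := h'
    refine ⟨N * N', Nat.mul_pos hN hN', fun k => ?_⟩
    obtain ⟨X, hX⟩ := h (N' * k)
    obtain ⟨X', hX'⟩ := h' (N * k)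
    refine ⟨X ++ X', ?_⟩
    rw [List.map_append, List.sum_append, ← hX, ← hX', smul_add]
    congr 2 <;> push_cast <;> ring

/-- weighted norm bound -/
def Bd (w : A → ℝ) (x : GR A) (c : ℝ) : Prop :=
  ∃ P ∈ Pos A, ∃ N ∈ Pos A, x = P - N ∧ Fn w P + Fn w N ≤ c

theorem Bd.mono {w : A → ℝ} {x : GR A} {c c' : ℝ} (h : Bd w x c) (hc : c ≤ c') : Bd w x c' := by
  obtain ⟨P, hP, N, hN, e, h⟩ := h
  exact ⟨P, hP, N, hN, e, h.trans hc⟩

theorem Bd.of_pos {w : A → ℝ} {x : GR A} (hx : x ∈ Pos A) : Bd w x (Fn w x) :=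
  ⟨x, hx, 0, zero_mem _, by simp, by simp⟩

theorem Bd.zero (w : A → ℝ) : Bd w 0 0 := ⟨0, zero_mem _, 0, zero_mem _, by simp, by simp⟩

theorem Bd.add {w : A → ℝ} {x y : GR A} {c c' : ℝ} (h : Bd w x c) (h' : Bd w y c') :
    Bd w (x + y) (c + c') := by
  obtain ⟨P, hP, N, hN, rfl, h⟩ := h
  obtain ⟨P', hP', N', hN', rfl, h'⟩ := h'
  refine ⟨P + P', add_mem hP hP', N + N', add_mem hN hN', by ring, ?_⟩
  rw [map_add, map_add]; linarith

theorem Bd.neg {w : A → ℝ} {x : GR A} {c : ℝ} (h : Bd w x c) : Bd w (-x) c := by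
  obtain ⟨P, hP, N, hN, rfl, h⟩ := h
  exact ⟨N, hN, P, hP, by ring, by linarith⟩

theorem Bd.sum {w : A → ℝ} {κ : Type} (s : Finset κ) (x : κ → GR A) (c : κ → ℝ)
    (h : ∀ k ∈ s, Bd w (x k) (c k)) : Bd w (∑ k ∈ s, x k) (∑ k ∈ s, c k) := by
  classical
  induction s using Finset.induction_on with
  | empty => simpa using Bd.zero w
  | insert j s hj ih =>
    rw [sum_insert hj, sum_insert hj]
    exact (h j (by simp)).add (ih fun k hk => h k (by simp [hk]))

theorem Bd.smul {w : A → ℝ} {x : GR A} {c : ℝ} (h : Bd w x c) (q : ℚ) :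
    Bd w (q • x) (|(q : ℝ)| * c) := by
  have key : ∀ q : ℚ, 0 ≤ q → Bd w (q • x) (q * c) := by
    intro q hq
    obtain ⟨P, hP, N, hN, rfl, h⟩ := h
    refine ⟨q • P, pos_smul hq hP, q • N, pos_smul hq hN, smul_sub _ _ _, ?_⟩
    rw [Fn_smul, Fn_smul, ← mul_add]
    exact mul_le_mul_of_nonneg_left h (by exact_mod_cast hq)
  rcases le_total 0 q with hq | hq
  · rw [abs_of_nonneg (by exact_mod_cast hq)]; exact key q hq
  · have := (key (-q) (by linarith)).neg
    rw [neg_smul, neg_neg] at this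
    rw [abs_of_nonpos (by exact_mod_cast hq)]
    simpa using this

theorem Bd.nonneg {w : A → ℝ} (hw0 : ∀ a, 0 ≤ w a) {x : GR A} {c : ℝ} (h : Bd w x c) : 0 ≤ c := by
  obtain ⟨P, hP, N, hN, -, h⟩ := h
  linarith [Fn_nonneg hw0 hP, Fn_nonneg hw0 hN]

theorem Bd.mul {w : A → ℝ} (hw0 : ∀ a, 0 ≤ w a) (hw : ∀ a b, w (a + b) ≤ w a * w b)
    {x y : GR A} {c c' : ℝ} (h : Bd w x c) (h' : Bd w y c') : Bd w (x * y) (c * c') := by
  have hc := h.nonneg hw0
  obtain ⟨P, hP, N, hN, rfl, h⟩ := h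
  obtain ⟨P', hP', N', hN', rfl, h'⟩ := h'
  refine ⟨P * P' + N * N', add_mem (pos_mul hP hP') (pos_mul hN hN'), P * N' + N * P',
    add_mem (pos_mul hP hN') (pos_mul hN hP'), by ring, ?_⟩
  rw [map_add, map_add]
  have h1 := Fn_submul hw hP hP'
  have h2 := Fn_submul hw hN hN'
  have h3 := Fn_submul hw hP hN'
  have h4 := Fn_submul hw hN hP'
  have h5 := mul_le_mul h h' (add_nonneg (Fn_nonneg hw0 hP') (Fn_nonneg hw0 hN')) hc
  nlinarith

theorem exists_decomp (x : GR A) : ∃ P ∈ Pos A, ∃ N ∈ Pos A, x = P - N := by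
  have : ∃ c, Bd (fun _ => 0) x c := by
    induction x using AddMonoidAlgebra.induction_linear with
    | zero => exact ⟨0, Bd.zero _⟩
    | add x y hx hy =>
      obtain ⟨c, h⟩ := hx
      obtain ⟨c', h'⟩ := hy
      exact ⟨_, h.add h'⟩
    | single a c =>
      have := (Bd.of_pos (w := fun _ => 0) (pos_eg a)).smul c
      rw [eg, AddMonoidAlgebra.smul_single, smul_eq_mul, mul_one] at this
      exact ⟨_, this⟩
  obtain ⟨c, P, hP, N, hN, e, -⟩ := this
  exact ⟨P, hP, N, hN, e⟩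

/-- first order expansion of group elements along generators -/
theorem delta_expand {T : Type} (γ : T → A) (s : Finset T) (m : T → ℤ) :
    eg (∑ t ∈ s, m t • γ t) - 1 ∈ Ideal.span (Set.range fun t => eg (γ t) - 1) ∧
    eg (∑ t ∈ s, m t • γ t) - 1 - ∑ t ∈ s, (m t : GR A) * (eg (γ t) - 1) ∈
      Ideal.span (Set.range fun t => eg (γ t) - 1) ^ 2 := by
  classical
  set I := Ideal.span (Set.range fun t => eg (γ t) - 1) with hI
  have hadd : ∀ (x y : A) (u v : GR A), (eg x - 1 ∈ I ∧ eg x - 1 - u ∈ I ^ 2) →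
      (eg y - 1 ∈ I ∧ eg y - 1 - v ∈ I ^ 2) →
      (eg (x + y) - 1 ∈ I ∧ eg (x + y) - 1 - (u + v) ∈ I ^ 2) := by
    intro x y u v hx hy
    constructor
    · have e : eg (x + y) - 1 = eg y * (eg x - 1) + (eg y - 1) := by rw [eg_add]; ring
      rw [e]; exact add_mem (Ideal.mul_mem_left _ _ hx.1) hy.1
    · have e : eg (x + y) - 1 - (u + v) =
          (eg x - 1) * (eg y - 1) + (eg x - 1 - u) + (eg y - 1 - v) := by rw [eg_add]; ring
      rw [e]
      refine add_mem (add_mem ?_ hx.2) hy.2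
      rw [pow_two]; exact Ideal.mul_mem_mul hx.1 hy.1
  have hneg : ∀ (x : A) (u : GR A), (eg x - 1 ∈ I ∧ eg x - 1 - u ∈ I ^ 2) →
      (eg (-x) - 1 ∈ I ∧ eg (-x) - 1 - (-u) ∈ I ^ 2) := by
    intro x u hx
    have h1 : eg x * eg (-x) = 1 := by rw [← eg_add, add_neg_cancel, eg_zero]
    have h2 : eg (-x) - 1 ∈ I := by
      have e : eg (-x) - 1 = -eg (-x) * (eg x - 1) := by linear_combination h1
      rw [e]; exact Ideal.mul_mem_left _ _ hx.1
    refine ⟨h2, ?_⟩
    have e : eg (-x) - 1 - (-u) = -((eg x - 1) * (eg (-x) - 1)) - (eg x - 1 - u) := by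
      linear_combination h1
    rw [e]
    refine sub_mem (neg_mem ?_) hx.2
    rw [pow_two]; exact Ideal.mul_mem_mul hx.1 h2
  have hz : ∀ t (n : ℤ), eg (n • γ t) - 1 ∈ I ∧
      eg (n • γ t) - 1 - (n : GR A) * (eg (γ t) - 1) ∈ I ^ 2 := by
    intro t n
    have h1 : eg (γ t) - 1 ∈ I ∧ eg (γ t) - 1 - (eg (γ t) - 1) ∈ I ^ 2 :=
      ⟨Ideal.subset_span ⟨t, rfl⟩, by simp⟩
    induction n using Int.induction_on with
    | zero => simp [eg_zero]
    | succ n ih =>
      have := hadd _ _ _ _ ih h1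
      rw [add_smul, one_smul]
      convert this using 3
      push_cast; ring
    | pred n ih =>
      have := hadd _ _ _ _ ih (hneg _ _ h1)
      rw [sub_smul, one_smul, sub_eq_add_neg (-(n : ℤ) • γ t) (γ t)]
      convert this using 3
      push_cast; ring
  induction s using Finset.induction_on with
  | empty => simp [eg_zero]
  | insert j s hj ih =>
    rw [sum_insert hj, sum_insert hj]
    exact hadd _ _ _ _ (hz j (m j)) ih

theorem second_diff (I : Ideal (GR A)) (x : A) (u : GR A) (h1 : eg x - 1 ∈ I)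
    (h2 : eg x - 1 - u ∈ I ^ 2) : eg x + eg (-x) - 2 - u ^ 2 ∈ I ^ 3 := by
  have h0 : eg x * eg (-x) = 1 := by rw [← eg_add, add_neg_cancel, eg_zero]
  have h3 : eg (-x) - 1 ∈ I := by
    have e : eg (-x) - 1 = -eg (-x) * (eg x - 1) := by linear_combination h0
    rw [e]; exact Ideal.mul_mem_left _ _ h1
  have h4 : u ∈ I := by
    have := sub_mem h1 (Ideal.pow_le_self two_ne_zero h2)
    simpa using this
  have e : eg x + eg (-x) - 2 - u ^ 2 =
      (eg x - 1) * (eg x - 1) * (eg (-x) - 1) + (eg x - 1 - u) * (eg x - 1 + u) := by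
    linear_combination (2 - eg x) * h0
  rw [e]
  refine add_mem ?_ ?_
  · rw [pow_succ, pow_two]
    exact Ideal.mul_mem_mul (Ideal.mul_mem_mul h1 h1) h3
  · rw [pow_succ]
    exact Ideal.mul_mem_mul h2 (add_mem h1 h4)

end Vale.Agent.P058
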