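import Mathlib

set_option autoImplicit false

open Set

namespace Vale.Agent.P058

/-- A group sitting inside a semigroup as the corner `e M e` of a minimal idempotent. -/
structure Setup (M G : Type) [Semigroup M] [Group G] where
  c : G → M
  r : M → G
  c_mul : ∀ g h, c (g * h) = c g * c h
  c_r : ∀ x, c (r x) = c 1 * x * c 1
  c_inj : Function.Injective c
  idem : ∀ f, f * f = f → f * c 1 = f → c 1 * f = c 1

theorem exists_min_idem {M : Type} [Semigroup M] [Nonempty M] [TopologicalSpace M]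
    [CompactSpace M] [T2Space M] (hc : ∀ y : M, Continuous (· * y)) :
    ∃ e : M, e * e = e ∧ ∀ y, y * e = y → ∃ x, x * y = e := by
  let S : Set (Set M) := {N | IsClosed N ∧ N.Nonempty ∧ ∀ x, ∀ y ∈ N, x * y ∈ N}
  obtain ⟨L, -, hL⟩ : ∃ L, L ⊆ univ ∧ Minimal (· ∈ S) L := by
    refine zorn_superset_nonempty S (fun c hcs hc hne => ?_) univ
      ⟨isClosed_univ, univ_nonempty, fun _ _ _ => mem_univ _⟩
    refine ⟨⋂₀ c, ⟨isClosed_sInter fun t ht => (hcs ht).1, ?_, fun x y hy => ?_⟩,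
      fun s hs => sInter_subset_of_mem hs⟩
    · have : Nonempty c := hne.to_subtype
      exact IsCompact.nonempty_sInter_of_directed_nonempty_isCompact_isClosed
        (by
          intro a ha b hb
          rcases hc.total ha hb with h | h
          · exact ⟨a, ha, subset_rfl, h⟩
          · exact ⟨b, hb, h, subset_rfl⟩)
        (fun U hU => (hcs hU).2.1) (fun U hU => (hcs hU).1.isCompact)
        (fun U hU => (hcs hU).1)
    · exact mem_sInter.2 fun t ht => (hcs ht).2.2 x y (mem_sInter.1 hy t ht)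
  obtain ⟨hcl, hne, hid⟩ := hL.prop
  obtain ⟨e, heL, hee⟩ := exists_idempotent_in_compact_subsemigroup hc L hne hcl.isCompact
    (fun x _ y hy => hid x y hy)
  refine ⟨e, hee, fun y hy => ?_⟩
  have hyL : y ∈ L := hy ▸ hid y e heL
  have : range (· * y) = L := by
    apply hL.eq_of_subset
    · refine ⟨(isCompact_range (hc y)).isClosed, range_nonempty _, ?_⟩
      rintro x _ ⟨z, rfl⟩
      exact ⟨x * z, mul_assoc _ _ _⟩
    · rintro _ ⟨z, rfl⟩
      exact hid z y hyL
  have he : e ∈ range (· * y) := this ▸ heL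
  exact he

theorem exists_setup {M : Type} [Semigroup M] [Nonempty M] [TopologicalSpace M]
    [CompactSpace M] [T2Space M] (hc : ∀ y : M, Continuous (· * y)) :
    ∃ (G : Type) (_ : Group G), Nonempty (Setup M G) := by
  obtain ⟨e, hee, hmin⟩ := exists_min_idem hc
  choose! inv hinv using hmin
  let G := {x : M // e * x = x ∧ x * e = x}
  let : Mul G := ⟨fun x y => ⟨x.1 * y.1, by rw [← mul_assoc, x.2.1], by rw [mul_assoc, y.2.2]⟩⟩
  let : One G := ⟨⟨e, hee, hee⟩⟩
  let : Inv G := ⟨fun x => ⟨e * inv x.1 * e, by rw [← mul_assoc, ← mul_assoc, hee],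
    by rw [mul_assoc, hee]⟩⟩
  let inst : Group G := Group.ofLeftAxioms (fun a b c => Subtype.ext (mul_assoc _ _ _))
    (fun a => Subtype.ext a.2.1) (fun a => Subtype.ext (by
      show e * inv a.1 * e * a.1 = e
      rw [mul_assoc, a.2.1, mul_assoc, hinv _ a.2.2, hee]))
  refine ⟨G, inst, ⟨⟨fun g => g.1, fun x => ⟨e * x * e, by rw [← mul_assoc, ← mul_assoc, hee],
    by rw [mul_assoc, hee]⟩, fun _ _ => rfl, fun _ => rfl, Subtype.val_injective,
    fun f hf hfe => ?_⟩⟩⟩
  show e * f = e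
  have := hinv f hfe
  rw [← this, mul_assoc, hf]

/-- A family of closed sets of tuples, graded by weights. -/
structure Fam {M ι W : Type} [Semigroup M] [TopologicalSpace M] [Add W] [Zero W]
    (H : W → Set (ι → M)) : Prop where
  closed : ∀ s, IsClosed (H s)
  mul : ∀ s t p q, p ∈ H s → q ∈ H t → p * q ∈ H (s + t)
  diag : ∀ x, (fun _ => x) ∈ H 0

variable {M G : Type} [Semigroup M] [Group G]

/-- group tuples in the family -/
def GH (S : Setup M G) {ι W : Type} (H : W → Set (ι → M)) (s : W) : Set (ι → G) :=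
  {g | (fun i => S.c (g i)) ∈ H s}

theorem Setup.r_c (S : Setup M G) (g : G) : S.r (S.c g) = g :=
  S.c_inj (by rw [S.c_r, ← S.c_mul, ← S.c_mul, one_mul, mul_one])

variable [TopologicalSpace M]

theorem GH_mul (S : Setup M G) {ι W : Type} [Add W] [Zero W] {H : W → Set (ι → M)} (hH : Fam H)
    {s t : W} {g h : ι → G} (hg : g ∈ GH S H s) (hh : h ∈ GH S H t) : g * h ∈ GH S H (s + t) := by
  have := hH.mul s t _ _ hg hh
  simp only [GH, mem_ofPred_eq, Pi.mul_apply, S.c_mul]
  exact this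

theorem GH_diag (S : Setup M G) {ι W : Type} [Add W] [Zero W] {H : W → Set (ι → M)} (hH : Fam H)
    (x : G) : (fun _ => x) ∈ GH S H 0 := hH.diag _

theorem GH_r (S : Setup M G) {ι W : Type} [AddMonoid W] {H : W → Set (ι → M)} (hH : Fam H)
    {s : W} {p : ι → M} (hp : p ∈ H s) : (fun i => S.r (p i)) ∈ GH S H s := by
  have := hH.mul _ _ _ _ (hH.mul _ _ _ _ (hH.diag (S.c 1)) hp) (hH.diag (S.c 1))
  simp only [zero_add, add_zero] at this
  simp only [GH, mem_ofPred_eq, S.c_r]
  exact this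

variable [CompactSpace M] [T2Space M]

/-- An element available at every positive weight has its inverse available as well. -/
theorem GH_inv (hc : ∀ y : M, Continuous (· * y)) (S : Setup M G) {ι : Type}
    {H : ℝ → Set (ι → M)} (hH : Fam H) {g : ι → G} (hg : ∀ ε, 0 < ε → g ∈ GH S H ε) :
    ∀ ε, 0 < ε → g⁻¹ ∈ GH S H ε := by
  let Y : Set (ι → M) := ⋂ ε : {ε : ℝ // 0 < ε}, H ε.1
  have hYc : IsClosed Y := isClosed_iInter fun ε => hH.closed _
  have hYm : ∀ p ∈ Y, ∀ q ∈ Y, p * q ∈ Y := by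
    intro p hp q hq
    refine mem_iInter.2 fun ε => ?_
    have := hH.mul _ _ _ _ (mem_iInter.1 hp ⟨ε.1 / 2, half_pos ε.2⟩)
      (mem_iInter.1 hq ⟨ε.1 / 2, half_pos ε.2⟩)
    simpa using this
  let y : ι → M := fun i => S.c (g i)
  have hy : y ∈ Y := mem_iInter.2 fun ε => hg ε.1 ε.2
  have hcP : ∀ z : ι → M, Continuous (fun p : ι → M => p * z) := fun z =>
    continuous_pi fun i => (hc (z i)).comp (continuous_apply i)
  obtain ⟨f, ⟨w, hw, rfl⟩, hf⟩ := exists_idempotent_in_compact_subsemigroup hcP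
    ((fun p => p * y) '' Y) ⟨_, y, hy, rfl⟩ (hYc.isCompact.image (hcP y)) (by
      rintro _ ⟨w, hw, rfl⟩ _ ⟨w', hw', rfl⟩
      exact ⟨w * y * w', hYm _ (hYm _ hw _ hy) _ hw', mul_assoc _ _ _⟩)
  have key : g⁻¹ = fun i => S.r (w i) := by
    funext i
    have h1 : S.c 1 * (w i * y i) = S.c 1 := by
      refine S.idem _ (congrFun hf i) ?_
      simp only [y]
      rw [mul_assoc, ← S.c_mul, mul_one]
    rw [Pi.inv_apply, inv_eq_iff_mul_eq_one, mul_eq_one_comm]
    apply S.c_inj
    rw [S.c_mul, S.c_r, mul_assoc, ← S.c_mul, one_mul, mul_assoc]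
    exact h1
  intro ε hε
  rw [key]
  exact GH_r S hH (mem_iInter.1 hw ⟨ε, hε⟩)

theorem Fam.restrict {ι : Type} {H : ℝ → Set (ι → M)} (hH : Fam H) (P : ι → Prop) :
    Fam (fun s => (fun (p : ι → M) (i : {i // P i}) => p i.1) '' H s) where
  closed s := ((hH.closed s).isCompact.image
    (continuous_pi fun i : {i // P i} => continuous_apply i.1)).isClosed
  mul := by
    rintro s t _ _ ⟨p, hp, rfl⟩ ⟨q, hq, rfl⟩
    exact ⟨p * q, hH.mul _ _ _ _ hp hq, rfl⟩
  diag x := ⟨fun _ => x, hH.diag x, rfl⟩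

omit [CompactSpace M] [T2Space M] in
theorem GH_restrict (S : Setup M G) {ι : Type} {H : ℝ → Set (ι → M)} (hH : Fam H) (P : ι → Prop)
    (s : ℝ) (g : {i // P i} → G) :
    g ∈ GH S (fun s => (fun (p : ι → M) (i : {i // P i}) => p i.1) '' H s) s ↔
      ∃ g' ∈ GH S H s, ∀ i : {i // P i}, g' i.1 = g i := by
  constructor
  · rintro ⟨p, hp, hpe⟩
    refine ⟨_, GH_r S hH hp, fun i => ?_⟩
    have := congrFun hpe i
    simp only at this
    simp only [this, S.r_c]
  · rintro ⟨g', hg', he⟩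
    exact ⟨_, hg', funext fun i => by simp only [he]⟩

end Vale.Agent.P058
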