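import Vale.Agent.P058.Positive

set_option autoImplicit false

open Finset

namespace Vale.Agent.P058

variable {A : Type} [AddCommGroup A] {d : ℕ}

/-- gradient size -/
noncomputable def nu (gr : Fin d → A →+ ℝ) (a : A) : ℝ := ∑ α, |gr α a|

/-- weight at scale `L` -/
noncomputable def om (gr : Fin d → A →+ ℝ) (L : ℕ) (a : A) : ℝ := (1 + nu gr a / L) ^ 2

theorem nu_nonneg (gr : Fin d → A →+ ℝ) (a : A) : 0 ≤ nu gr a :=
  sum_nonneg fun _ _ => abs_nonneg _

theorem nu_add (gr : Fin d → A →+ ℝ) (a b : A) : nu gr (a + b) ≤ nu gr a + nu gr b := by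
  simp only [nu, ← sum_add_distrib, map_add]
  exact sum_le_sum fun _ _ => abs_add_le _ _

theorem nu_nsmul (gr : Fin d → A →+ ℝ) (n : ℕ) (a : A) : nu gr (n • a) = n * nu gr a := by
  simp only [nu, map_nsmul, nsmul_eq_mul, abs_mul, Nat.abs_cast, mul_sum]

theorem om_nonneg (gr : Fin d → A →+ ℝ) (L : ℕ) (a : A) : 0 ≤ om gr L a := sq_nonneg _

theorem om_submul (gr : Fin d → A →+ ℝ) (L : ℕ) (a b : A) :
    om gr L (a + b) ≤ om gr L a * om gr L b := by
  simp only [om]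
  rw [← mul_pow]
  have h1 : 0 ≤ nu gr a / L := div_nonneg (nu_nonneg _ _) (Nat.cast_nonneg _)
  have h2 : 0 ≤ nu gr b / L := div_nonneg (nu_nonneg _ _) (Nat.cast_nonneg _)
  have h3 : nu gr (a + b) / L ≤ nu gr a / L + nu gr b / L := by
    rw [← add_div]
    exact div_le_div_of_nonneg_right (nu_add _ _ _) (Nat.cast_nonneg _)
  refine pow_le_pow_left₀ (add_nonneg zero_le_one (div_nonneg (nu_nonneg _ _) (Nat.cast_nonneg _)))
    (by nlinarith [mul_nonneg h1 h2]) 2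

theorem om_le_of (gr : Fin d → A →+ ℝ) {L : ℕ} (hL : 1 ≤ L) (a : A) {C : ℝ}
    (h : nu gr a ≤ L * C) : om gr L a ≤ (1 + C) ^ 2 := by
  have hL' : (0 : ℝ) < L := by exact_mod_cast hL
  refine pow_le_pow_left₀ (add_nonneg zero_le_one (div_nonneg (nu_nonneg _ _) hL'.le)) ?_ 2
  have : nu gr a / L ≤ C := by rw [div_le_iff₀ hL']; linarith
  linarith

theorem exists_Bd (gr : Fin d → A →+ ℝ) (x : GR A) :
    ∃ c, 0 ≤ c ∧ ∀ L, 1 ≤ L → Bd (om gr L) x c := by
  obtain ⟨P, hP, N, hN, e⟩ := exists_decomp x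
  have hle : ∀ L, 1 ≤ L → ∀ a, om gr L a ≤ (1 + nu gr a) ^ 2 := by
    intro L hL a
    have hL' : (1 : ℝ) ≤ L := by exact_mod_cast hL
    exact om_le_of gr hL a (by nlinarith [nu_nonneg gr a])
  refine ⟨Fn (fun a => (1 + nu gr a) ^ 2) P + Fn (fun a => (1 + nu gr a) ^ 2) N,
    add_nonneg (Fn_nonneg (fun _ => sq_nonneg _) hP) (Fn_nonneg (fun _ => sq_nonneg _) hN),
    fun L hL => ⟨P, hP, N, hN, e, add_le_add (Fn_mono (hle L hL) hP) (Fn_mono (hle L hL) hN)⟩⟩

/-- uniform measure on an arithmetic progression -/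
noncomputable def uL (a : A) (L : ℕ) : GR A := ∑ j ∈ range L, eg (j • a)

theorem uL_pos (a : A) (L : ℕ) : uL a L ∈ Pos A := sum_mem fun _ _ => pos_eg _

theorem uL_mass (a : A) (L : ℕ) : Fn (fun _ => 1) (uL a L) = L := by
  simp [uL, Fn_eg]

theorem delta_uL (a : A) (L : ℕ) : (eg a - 1) * uL a L = eg (L • a) - 1 := by
  induction L with
  | zero => simp [uL, eg_zero]
  | succ L ih =>
    rw [uL, sum_range_succ, mul_add, ← uL, ih, succ_nsmul, eg_add]; ring

theorem Bd_uL (gr : Fin d → A →+ ℝ) {L : ℕ} (hL : 1 ≤ L) (a : A) {C : ℝ} (h : nu gr a ≤ C) :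
    Bd (om gr L) (uL a L) (L * (1 + C) ^ 2) := by
  refine (Bd.of_pos (uL_pos a L)).mono ?_
  rw [uL, map_sum]
  have : ∀ j ∈ range L, Fn (om gr L) (eg (j • a)) ≤ (1 + C) ^ 2 := by
    intro j hj
    rw [Fn_eg]
    refine om_le_of gr hL _ ?_
    rw [nu_nsmul]
    have : (j : ℝ) ≤ L := by exact_mod_cast (mem_range.1 hj).le
    exact mul_le_mul this h (nu_nonneg _ _) (Nat.cast_nonneg _)
  simpa using sum_le_sum this

theorem Bd_delta_uL (gr : Fin d → A →+ ℝ) {L : ℕ} (hL : 1 ≤ L) (a : A) {C : ℝ}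
    (h : nu gr a ≤ C) : Bd (om gr L) ((eg a - 1) * uL a L) (2 * (1 + C) ^ 2) := by
  rw [delta_uL]
  refine ⟨_, pos_eg _, 1, pos_one, rfl, ?_⟩
  rw [Fn_eg, Fn_one]
  have h1 : om gr L (L • a) ≤ (1 + C) ^ 2 := om_le_of gr hL _ (by
    rw [nu_nsmul]; exact mul_le_mul_of_nonneg_left h (Nat.cast_nonneg _))
  have h2 : om gr L 0 ≤ (1 + C) ^ 2 := om_le_of gr hL _ (by
    have : nu gr 0 = 0 := by simp [nu]
    rw [this]
    exact mul_nonneg (Nat.cast_nonneg _) ((nu_nonneg _ _).trans h))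
  linarith

theorem Bd_prod (gr : Fin d → A →+ ℝ) (L : ℕ) {T : Type} (s : Finset T) (x : T → GR A) (c : ℝ)
    (h : ∀ t ∈ s, Bd (om gr L) (x t) c) : Bd (om gr L) (∏ t ∈ s, x t) (c ^ s.card) := by
  classical
  induction s using Finset.induction_on with
  | empty =>
    refine (Bd.of_pos pos_one).mono ?_
    simp [Fn_one, om, nu]
  | insert j s hj ih =>
    rw [prod_insert hj, card_insert_of_notMem hj, pow_succ']
    exact (h j (by simp)).mul (om_nonneg gr L) (om_submul gr L) (ih fun k hk => h k (by simp [hk]))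

section Fam

variable {T : Type} [Fintype T] (γ : T → A)

/-- the smoothing element -/
noncomputable def UL (L : ℕ) : GR A := ∏ t, uL (γ t) L

theorem UL_pos (L : ℕ) : UL γ L ∈ Pos A := pos_prod _ _ fun _ _ => uL_pos _ _

theorem UL_mass (L : ℕ) : Fn (fun _ => 1) (UL γ L) = (L : ℝ) ^ Fintype.card T := by
  classical
  have : ∀ s : Finset T, Fn (fun _ => 1) (∏ t ∈ s, uL (γ t) L) = (L : ℝ) ^ s.card := by
    intro s
    induction s using Finset.induction_on with
    | empty => simp [Fn_one]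
    | insert j s hj ih =>
      rw [prod_insert hj, card_insert_of_notMem hj, Fn_mul_zero, ih, uL_mass, pow_succ']
  exact this univ

theorem Bd_UL (gr : Fin d → A →+ ℝ) {L : ℕ} (hL : 1 ≤ L) {C : ℝ} (h : ∀ t, nu gr (γ t) ≤ C) :
    Bd (om gr L) (UL γ L) ((L * (1 + C) ^ 2) ^ Fintype.card T) :=
  Bd_prod gr L univ _ _ fun t _ => Bd_uL gr hL _ (h t)

theorem Bd_delta_UL (gr : Fin d → A →+ ℝ) {L : ℕ} (hL : 1 ≤ L) {C : ℝ} (h : ∀ t, nu gr (γ t) ≤ C)
    (t : T) : Bd (om gr L) ((eg (γ t) - 1) * UL γ L)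
      (2 * ((L * (1 + C) ^ 2) ^ Fintype.card T / L)) := by
  classical
  have hL' : (0 : ℝ) < L := by exact_mod_cast hL
  rw [UL, ← mul_prod_erase univ _ (mem_univ t), ← mul_assoc]
  have := (Bd_delta_uL gr hL _ (h t)).mul (om_nonneg gr L) (om_submul gr L)
    (Bd_prod gr L (univ.erase t) (fun t => uL (γ t) L) _ fun t _ => Bd_uL gr hL _ (h t))
  refine this.mono (le_of_eq ?_)
  have e : Fintype.card T = (univ.erase t).card + 1 := by
    rw [card_erase_add_one (mem_univ t), card_univ]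
  rw [e, pow_succ (L * (1 + C) ^ 2 : ℝ)]
  field_simp

theorem Bd_order (gr : Fin d → A →+ ℝ) {C : ℝ} (h : ∀ t, nu gr (γ t) ≤ C) (j : ℕ) {x : GR A}
    (hx : x ∈ Ideal.span (Set.range fun t => eg (γ t) - 1) ^ j) :
    ∃ c, 0 ≤ c ∧ ∀ L, 1 ≤ L → Bd (om gr L) (x * UL γ L ^ j)
      (c * ((L * (1 + C) ^ 2) ^ Fintype.card T / L) ^ j) := by
  have h1 : ∀ x ∈ Ideal.span (Set.range fun t => eg (γ t) - 1), ∃ c, 0 ≤ c ∧ ∀ L, 1 ≤ L →
      Bd (om gr L) (x * UL γ L) (c * ((L * (1 + C) ^ 2) ^ Fintype.card T / L)) := by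
    intro x hx
    induction hx using Submodule.span_induction with
    | mem x hx =>
      obtain ⟨t, rfl⟩ := hx
      exact ⟨2, by norm_num, fun L hL => Bd_delta_UL γ gr hL h t⟩
    | zero => exact ⟨0, le_rfl, fun L _ => by simpa using Bd.zero _⟩
    | add x y _ _ hx hy =>
      obtain ⟨c, hc, hx⟩ := hx
      obtain ⟨c', hc', hy⟩ := hy
      refine ⟨c + c', add_nonneg hc hc', fun L hL => ?_⟩
      rw [add_mul, add_mul]
      exact (hx L hL).add (hy L hL)
    | smul r x _ hx =>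
      obtain ⟨c, hc, hx⟩ := hx
      obtain ⟨c', hc', hr⟩ := exists_Bd gr r
      refine ⟨c' * c, mul_nonneg hc' hc, fun L hL => ?_⟩
      rw [smul_eq_mul, mul_assoc, mul_assoc]
      exact (hr L hL).mul (om_nonneg gr L) (om_submul gr L) (hx L hL)
  induction j generalizing x with
  | zero => simpa using exists_Bd gr x
  | succ j ih =>
    rw [pow_succ] at hx
    refine Submodule.mul_induction_on hx (fun u hu n hn => ?_) (fun x y hx hy => ?_)
    · obtain ⟨c, hc, hu⟩ := ih hu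
      obtain ⟨c', hc', hn⟩ := h1 n hn
      refine ⟨c * c', mul_nonneg hc hc', fun L hL => ?_⟩
      have := (hu L hL).mul (om_nonneg gr L) (om_submul gr L) (hn L hL)
      convert this using 1 <;> ring
    · obtain ⟨c, hc, hx⟩ := hx
      obtain ⟨c', hc', hy⟩ := hy
      refine ⟨c + c', add_nonneg hc hc', fun L hL => ?_⟩
      rw [add_mul, add_mul]
      exact (hx L hL).add (hy L hL)

end Fam

/-- the lazy random walk step -/
noncomputable def walk (eh : Fin d → A) : GR A :=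
  ((2 * d + 1 : ℚ))⁻¹ • (1 + ∑ α, (eg (eh α) + eg (-eh α)))

theorem walk_pos (eh : Fin d → A) : walk eh ∈ Pos A :=
  pos_smul (by positivity) (add_mem pos_one (sum_mem fun _ _ => add_mem (pos_eg _) (pos_eg _)))

theorem walk_mass (eh : Fin d → A) : Fn (fun _ => 1) (walk eh) = 1 := by
  simp only [walk, Fn_smul, map_add, map_sum, Fn_one, Fn_eg, sum_const, card_univ,
    Fintype.card_fin, nsmul_eq_mul]
  push_cast
  field_simp
  ring

theorem walk_pow_mass (eh : Fin d → A) (j : ℕ) : Fn (fun _ => 1) (walk eh ^ j) = 1 := by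
  induction j with
  | zero => simp [Fn_one]
  | succ j ih => rw [pow_succ, Fn_mul_zero, ih, walk_mass, one_mul]

theorem walk_first (eh : Fin d → A) (l : A →+ ℝ) : Fn l (walk eh) = 0 := by
  simp [walk, Fn_smul, Fn_one, Fn_eg]

theorem walk_second (gr : Fin d → A →+ ℝ) (eh : Fin d → A)
    (he : ∀ α β, gr β (eh α) = if β = α then 1 else 0) (j : ℕ) :
    Fn (fun a => ∑ α, gr α a * gr α a) (walk eh ^ j) ≤ j := by
  rw [Fn_sum_fun]
  have h1 : ∀ α, Fn (fun a => gr α a * gr α a) (walk eh) = 2 / (2 * d + 1) := by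
    intro α
    simp only [walk, Fn_smul, map_add, map_sum, Fn_one, Fn_eg, map_zero, map_neg, he]
    simp only [mul_ite, mul_one, mul_zero, mul_neg, sum_add_distrib]
    simp
    ring
  have h2 : ∀ α, Fn (fun a => gr α a * gr α a) (walk eh ^ j) = j * (2 / (2 * d + 1)) := by
    intro α
    induction j with
    | zero => simp [Fn_one]
    | succ j ih =>
      rw [pow_succ, Fn_mul_two, ih, walk_mass, walk_first, walk_pow_mass, h1]
      push_cast; ring
  simp only [h2, sum_const, card_univ, Fintype.card_fin, nsmul_eq_mul]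
  have : (d : ℝ) * (2 / (2 * d + 1)) ≤ 1 := by
    rw [← mul_div_assoc, div_le_one (by positivity)]; linarith
  nlinarith [Nat.cast_nonneg (α := ℝ) j]

theorem sq_le_om (gr : Fin d → A →+ ℝ) {L : ℕ} (hL : 1 ≤ L) (a : A) :
    ∑ α, gr α a * gr α a ≤ (L : ℝ) ^ 2 * om gr L a := by
  have hL' : (0 : ℝ) < L := by exact_mod_cast hL
  have h1 : ∑ α, gr α a * gr α a ≤ nu gr a ^ 2 := by
    rw [nu, pow_two, sum_mul]
    refine sum_le_sum fun α _ => ?_
    rw [← abs_mul_abs_self]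
    exact mul_le_mul_of_nonneg_left
      (single_le_sum (f := fun β => |gr β a|) (fun _ _ => abs_nonneg _) (mem_univ α))
      (abs_nonneg _)
  have h2 : (L : ℝ) ^ 2 * om gr L a = (L + nu gr a) ^ 2 := by
    rw [om, ← mul_pow]; congr 1; field_simp
  rw [h2]
  nlinarith [nu_nonneg gr a]

theorem om_le_sq (gr : Fin d → A →+ ℝ) {L : ℕ} (hL : 1 ≤ L) (a : A) :
    om gr L a ≤ 2 * 1 + 2 * d / (L : ℝ) ^ 2 * ∑ α, gr α a * gr α a := by
  have hL' : (0 : ℝ) < L := by exact_mod_cast hL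
  have h1 : nu gr a ^ 2 ≤ d * ∑ α, gr α a * gr α a := by
    have := sq_sum_le_card_mul_sum_sq (s := univ) (f := fun α => |gr α a|)
    simpa [nu, sq_abs, pow_two] using this
  have h2 : om gr L a ≤ 2 + 2 * (nu gr a / L) ^ 2 := by
    rw [om]; nlinarith [sq_nonneg (1 - nu gr a / L)]
  have h3 : (nu gr a / L) ^ 2 ≤ d / (L : ℝ) ^ 2 * ∑ α, gr α a * gr α a := by
    rw [div_pow, div_mul_eq_mul_div]
    exact div_le_div_of_nonneg_right h1 (by positivity)
  have e : 2 * d / (L : ℝ) ^ 2 * ∑ α, gr α a * gr α a =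
    2 * (d / (L : ℝ) ^ 2 * ∑ α, gr α a * gr α a) := by ring
  linarith

theorem Bd_green (gr : Fin d → A →+ ℝ) (eh : Fin d → A)
    (he : ∀ α β, gr β (eh α) = if β = α then 1 else 0) {L : ℕ} (hL : 1 ≤ L) (K : ℕ) :
    Bd (om gr L) (∑ j ∈ range (K * L ^ 2), walk eh ^ j) (K * L ^ 2 * (2 + 2 * d * K)) := by
  have hL' : (0 : ℝ) < L := by exact_mod_cast hL
  refine (Bd.of_pos (sum_mem fun j _ => pos_pow (walk_pos eh) j)).mono ?_
  rw [map_sum]
  have : ∀ j ∈ range (K * L ^ 2), Fn (om gr L) (walk eh ^ j) ≤ 2 + 2 * d * K := by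
    intro j hj
    refine (Fn_mono (om_le_sq gr hL) (pos_pow (walk_pos eh) j)).trans ?_
    rw [Fn_add_fun, Fn_const_mul, Fn_const_mul, walk_pow_mass]
    have h1 := walk_second gr eh he j
    have h2 : (j : ℝ) ≤ K * L ^ 2 := by exact_mod_cast (mem_range.1 hj).le
    have h3 : 2 * d / (L : ℝ) ^ 2 * Fn (fun a => ∑ α, gr α a * gr α a) (walk eh ^ j) ≤
        2 * d / (L : ℝ) ^ 2 * (K * L ^ 2) :=
      mul_le_mul_of_nonneg_left (h1.trans h2) (by positivity)
    have h4 : 2 * d / (L : ℝ) ^ 2 * (K * L ^ 2) = 2 * d * K := by field_simp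
    linarith
  have h5 := sum_le_sum this
  rw [sum_const, card_range, nsmul_eq_mul] at h5
  exact_mod_cast h5

end Vale.Agent.P058
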