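import Vale.Agent.P058.Smooth1

set_option autoImplicit false

open Finset

namespace Vale.Agent.P058

variable {A : Type} [AddCommGroup A] {d : ℕ}

theorem exists_repr (W : GR A) : ∃ (S : Type) (_ : Fintype S) (c : S → ℚ) (l : S → A),
    W = ∑ k, c k • eg (l k) := by
  refine ⟨W.coeff.support, inferInstance, fun k => W.coeff k, fun k => k, ?_⟩
  rw [sum_coe_sort W.coeff.support (fun k => W.coeff k • eg k)]
  conv_lhs => rw [← AddMonoidAlgebra.sum_coeff_single W]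
  refine sum_congr rfl fun k _ => ?_
  simp [eg]

theorem expansion (gr : Fin d → A →+ ℝ) (eh : Fin d → A)
    (he : ∀ α β, gr β (eh α) = if β = α then 1 else 0) {S : Type} [Fintype S] (c : S → ℚ)
    (l : S → A) (hB : ∀ α β, ∑ k, (c k : ℝ) * (gr α (l k) * gr β (l k)) = if α = β then 2 else 0) :
    ∃ C₁ : ℝ, 0 ≤ C₁ ∧ ∀ M : ℕ, 1 ≤ M → ∃ γ : Fin d ⊕ S → A, (∀ t, nu gr (γ t) ≤ d + 1) ∧
      ∃ a : Fin d ⊕ S → Fin d ⊕ S → ℚ, (∀ t t', |(a t t' : ℝ)| ≤ C₁ * M) ∧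
        ∑ k, c k • (eg ((M : ℤ) • l k) + eg (-((M : ℤ) • l k)) - 2)
          - (2 * (M : ℚ) ^ 2) • ∑ α, (eg (eh α) + eg (-eh α) - 2)
          - ∑ t, ∑ t', a t t' • ((eg (γ t) - 1) * (eg (γ t') - 1)) ∈
            Ideal.span (Set.range fun t => eg (γ t) - 1) ^ 3 := by
  classical
  refine ⟨∑ k, |(c k : ℝ)| * (2 * nu gr (l k) + 1),
    sum_nonneg fun k _ => mul_nonneg (abs_nonneg _) (by linarith [nu_nonneg gr (l k)]),
    fun M hM => ?_⟩
  have hM' : (1 : ℝ) ≤ M := by exact_mod_cast hM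
  let n : S → Fin d → ℤ := fun k α => ⌊(M : ℝ) * gr α (l k)⌋
  let γ : Fin d ⊕ S → A := Sum.elim eh fun k => (M : ℤ) • l k - ∑ α, n k α • eh α
  let m : S → Fin d ⊕ S → ℤ := fun k => Sum.elim (n k) fun k' => if k' = k then 1 else 0
  have hv : ∀ k α, |gr α (l k)| ≤ nu gr (l k) := fun k α =>
    single_le_sum (f := fun β => |gr β (l k)|) (fun _ _ => abs_nonneg _) (mem_univ α)
  have hn : ∀ k α, |(n k α : ℝ) - M * gr α (l k)| ≤ 1 := by
    intro k α
    have h1 := Int.floor_le ((M : ℝ) * gr α (l k))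
    have h2 := Int.lt_floor_add_one ((M : ℝ) * gr α (l k))
    rw [abs_le]; constructor <;> simp only [n] <;> linarith
  have hn2 : ∀ k α, |(n k α : ℝ)| ≤ M * (nu gr (l k) + 1) := by
    intro k α
    have h1 := abs_add_le ((n k α : ℝ) - M * gr α (l k)) (M * gr α (l k))
    rw [sub_add_cancel, abs_mul, Nat.abs_cast] at h1
    have h2 := mul_le_mul_of_nonneg_left (hv k α) (show (0 : ℝ) ≤ M by linarith)
    linarith [hn k α]
  have hm : ∀ k t, |(m k t : ℝ)| ≤ M * (nu gr (l k) + 1) := by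
    intro k t
    rcases t with α | k'
    · exact hn2 k α
    · have : (1 : ℝ) ≤ M * (nu gr (l k) + 1) := by nlinarith [nu_nonneg gr (l k)]
      simp only [m, Sum.elim_inr]
      split_ifs
      · simpa using this
      · simp only [Int.cast_zero, abs_zero]; linarith
  have hm1 : ∀ k k', |(m k (Sum.inr k') : ℝ)| ≤ 1 := by
    intro k k'
    simp only [m, Sum.elim_inr]
    split_ifs <;> simp
  have hγ : ∀ k, (M : ℤ) • l k = ∑ t, m k t • γ t := by
    intro k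
    simp [m, γ, Fintype.sum_sum_type]
  refine ⟨γ, fun t => ?_, fun t t' => ∑ k, c k * (m k t * m k t') -
    (if t = t' ∧ t.isLeft then 2 * (M : ℚ) ^ 2 else 0), fun t t' => ?_, ?_⟩
  · rcases t with α | k
    · simp only [γ, Sum.elim_inl, nu, he]
      rw [sum_eq_single α] <;> simp +contextual
    · have : ∀ α, |gr α (γ (Sum.inr k))| ≤ 1 := by
        intro α
        have e : gr α (γ (Sum.inr k)) = -((n k α : ℝ) - M * gr α (l k)) := by
          simp [γ, he]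
        rw [e, abs_neg]; exact hn k α
      have h2 := sum_le_sum (s := univ) fun α _ => this α
      simp only [sum_const, card_univ, Fintype.card_fin, nsmul_eq_mul, mul_one] at h2
      rw [nu]; linarith
  · have key : ∀ f : S → ℝ, (∀ k, |f k| ≤ M * (2 * nu gr (l k) + 1)) →
        |∑ k, (c k : ℝ) * f k| ≤ (∑ k, |(c k : ℝ)| * (2 * nu gr (l k) + 1)) * M := by
      intro f hf
      refine (abs_sum_le_sum_abs _ _).trans ?_
      rw [sum_mul]
      refine sum_le_sum fun k _ => ?_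
      rw [abs_mul]
      have := mul_le_mul_of_nonneg_left (hf k) (abs_nonneg (c k : ℝ))
      linarith
    have hmix : ∀ k t k', |(m k t : ℝ) * m k (Sum.inr k')| ≤ M * (2 * nu gr (l k) + 1) := by
      intro k t k'
      rw [abs_mul]
      have h1 := mul_le_mul (hm k t) (hm1 k k') (abs_nonneg _)
        (by nlinarith [nu_nonneg gr (l k)])
      nlinarith [nu_nonneg gr (l k)]
    rcases t with α | k₁
    · rcases t' with β | k₂
      · have e : ((∑ k, c k * (m k (Sum.inl α) * m k (Sum.inl β)) -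
            (if (Sum.inl α : Fin d ⊕ S) = Sum.inl β ∧ (Sum.inl α : Fin d ⊕ S).isLeft
              then 2 * (M : ℚ) ^ 2 else 0) : ℚ) : ℝ) =
            ∑ k, (c k : ℝ) * ((n k α : ℝ) * n k β - M ^ 2 * (gr α (l k) * gr β (l k))) := by
          have h1 : ∑ k, (c k : ℝ) * ((n k α : ℝ) * n k β - M ^ 2 * (gr α (l k) * gr β (l k))) =
              ∑ k, (c k : ℝ) * ((n k α : ℝ) * n k β) -
                M ^ 2 * ∑ k, (c k : ℝ) * (gr α (l k) * gr β (l k)) := by
            rw [mul_sum, ← sum_sub_distrib]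
            exact sum_congr rfl fun _ _ => by ring
          rw [h1, hB]
          by_cases h : α = β <;> simp [h, m, mul_comm]
        rw [e]
        refine key _ fun k => ?_
        have e2 : (n k α : ℝ) * n k β - M ^ 2 * (gr α (l k) * gr β (l k)) =
            ((n k α : ℝ) - M * gr α (l k)) * n k β +
              M * gr α (l k) * ((n k β : ℝ) - M * gr β (l k)) := by ring
        rw [e2]
        refine (abs_add_le _ _).trans ?_
        rw [abs_mul, abs_mul, abs_mul, Nat.abs_cast]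
        have h1 := mul_le_mul (hn k α) (hn2 k β) (abs_nonneg _) zero_le_one
        have h2 := mul_le_mul (mul_le_mul_of_nonneg_left (hv k α) (show (0 : ℝ) ≤ M by linarith))
          (hn k β) (abs_nonneg _) (by nlinarith [nu_nonneg gr (l k)])
        linarith
      · simp only [reduceCtorEq, false_and, if_false, sub_zero]
        push_cast
        exact key _ fun k => hmix k _ k₂
    · simp only [Sum.isLeft_inr, Bool.false_eq_true, and_false, if_false, sub_zero]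
      push_cast
      exact key _ fun k => by rw [mul_comm]; exact hmix k _ k₁
  · set I := Ideal.span (Set.range fun t => eg (γ t) - 1) with hI
    have h1 : ∀ k, eg ((M : ℤ) • l k) + eg (-((M : ℤ) • l k)) - 2 -
        (∑ t, (m k t : GR A) * (eg (γ t) - 1)) ^ 2 ∈ I ^ 3 := by
      intro k
      have := delta_expand γ univ (m k)
      rw [← hγ] at this
      exact second_diff I _ _ this.1 this.2
    have h2 : ∀ α, eg (eh α) + eg (-eh α) - 2 - (eg (eh α) - 1) ^ 2 ∈ I ^ 3 := fun α =>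
      second_diff I _ _ (Ideal.subset_span ⟨Sum.inl α, rfl⟩) (by simp)
    have h3 := sub_mem (sum_mem (t := univ) fun k _ => Submodule.smul_of_tower_mem _ (c k) (h1 k))
      (Submodule.smul_of_tower_mem _ (2 * (M : ℚ) ^ 2) (sum_mem (t := univ) fun α _ => h2 α))
    convert h3 using 1
    have e1 : ∑ t, ∑ t', (∑ k, c k * (m k t * m k t') : ℚ) • ((eg (γ t) - 1) * (eg (γ t') - 1)) =
        ∑ k, c k • (∑ t, (m k t : GR A) * (eg (γ t) - 1)) ^ 2 := by
      simp only [sum_smul, pow_two, sum_mul_sum, smul_sum]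
      rw [sum_comm (s := (univ : Finset S))]
      refine sum_congr rfl fun t _ => ?_
      rw [sum_comm (s := (univ : Finset S))]
      refine sum_congr rfl fun t' _ => sum_congr rfl fun k _ => ?_
      rw [mul_smul]
      congr 1
      rw [Algebra.smul_def, map_mul, map_intCast, map_intCast]
      ring
    have e2 : ∑ t, ∑ t', (if t = t' ∧ t.isLeft then 2 * (M : ℚ) ^ 2 else 0 : ℚ) •
        ((eg (γ t) - 1) * (eg (γ t') - 1)) =
        (2 * (M : ℚ) ^ 2) • ∑ α, (eg (eh α) - 1) ^ 2 := by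
      have : ∀ t : Fin d ⊕ S, ∑ t', (if t = t' ∧ t.isLeft then 2 * (M : ℚ) ^ 2 else 0 : ℚ) •
          ((eg (γ t) - 1) * (eg (γ t') - 1)) =
          (if t.isLeft then 2 * (M : ℚ) ^ 2 else 0 : ℚ) • ((eg (γ t) - 1) * (eg (γ t) - 1)) := by
        intro t
        rw [sum_eq_single t]
        · simp
        · intro b _ hb
          simp [Ne.symm hb]
        · simp
      rw [sum_congr rfl fun t _ => this t]
      simp only [Fintype.sum_sum_type, Sum.isLeft_inl, Sum.isLeft_inr, if_true,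
        Bool.false_eq_true, if_false, zero_smul, sum_const_zero, add_zero, smul_sum, pow_two]
      rfl
    simp only [sub_smul, sum_sub_distrib, smul_sub]
    rw [e1, e2]
    abel

theorem mp_comm_zsmul {B : Type} [AddCommGroup B] (φ : A →+ B) (z : ℤ) (x : GR A) :
    mp φ (mp (zsmulAddGroupHom z) x) = mp (zsmulAddGroupHom z) (mp φ x) := by
  induction x using AddMonoidAlgebra.induction_linear with
  | zero => simp
  | add x y hx hy => simp [hx, hy]
  | single a c => simp [mp_single]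

theorem numeric_bound {κ Γ Θ q C₁ c₃ x y : ℝ} {K M L r d : ℕ} (hκ : 0 < κ) (hK0 : (0 : ℝ) < K)
    (hM1' : (1 : ℝ) ≤ M) (hL0 : (0 : ℝ) < L) (hK : 3 * Γ * (2 * d + 1) / κ < K)
    (hM : 3 * Γ * (r ^ 2 * C₁ * (2 + 2 * d * K)) / κ < M)
    (hL : 3 * Γ * (c₃ * (2 + 2 * d * K)) / κ < L) (hΘ3 : Θ ^ 3 = Γ * (L ^ r) ^ 3)
    (hqr : q = 2 * M ^ 2 * (2 * d + 1)) (h3 : q * x ≤ q * Θ ^ 3)
    (h2 : y ≤ (r ^ 2 * (C₁ * M * (4 * (Θ ^ 3 / L ^ 2))) + c₃ * (Θ / L) ^ 3) *
        (K * L ^ 2 * (2 + 2 * d * K))) :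
    (L : ℝ) ^ 2 * (q * x + y) ≤ κ * (4 * M ^ 2 * (K * L ^ 2 * (L ^ r) ^ 3)) := by
  have hM0 : (0 : ℝ) < M := by linarith
  set Z : ℝ := L ^ 2 * (L ^ r) ^ 3 with hZ
  have hZ0 : 0 < Z := by positivity
  rw [div_lt_iff₀ hκ] at hK hM hL
  have t1 : (L : ℝ) ^ 2 * (q * Θ ^ 3) ≤ κ / 3 * (4 * M ^ 2 * (K * Z)) := by
    have e : (L : ℝ) ^ 2 * (q * Θ ^ 3) = (2 / 3 * M ^ 2 * Z) * (3 * Γ * (2 * d + 1)) := by
      rw [hqr, hΘ3, hZ]; ring
    have : 0 ≤ (2 / 3 * M ^ 2 * Z) * (K * κ) := by positivity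
    rw [e]
    nlinarith [mul_le_mul_of_nonneg_left hK.le (show (0 : ℝ) ≤ 2 / 3 * M ^ 2 * Z by positivity)]
  have t2 : (L : ℝ) ^ 2 * ((r ^ 2 * (C₁ * M * (4 * (Θ ^ 3 / L ^ 2)))) *
      (K * L ^ 2 * (2 + 2 * d * K))) ≤ κ / 3 * (4 * M ^ 2 * (K * Z)) := by
    have e : (L : ℝ) ^ 2 * ((r ^ 2 * (C₁ * M * (4 * (Θ ^ 3 / L ^ 2)))) *
        (K * L ^ 2 * (2 + 2 * d * K))) =
        (4 / 3 * M * K * Z) * (3 * Γ * (r ^ 2 * C₁ * (2 + 2 * d * K))) := by
      rw [hΘ3, hZ]; field_simp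
    rw [e]
    nlinarith [mul_le_mul_of_nonneg_left hM.le (show (0 : ℝ) ≤ 4 / 3 * M * K * Z by positivity)]
  have t3 : (L : ℝ) ^ 2 * ((c₃ * (Θ / L) ^ 3) * (K * L ^ 2 * (2 + 2 * d * K))) ≤
      κ / 3 * (4 * M ^ 2 * (K * Z)) := by
    have e : (L : ℝ) ^ 2 * ((c₃ * (Θ / L) ^ 3) * (K * L ^ 2 * (2 + 2 * d * K))) =
        (1 / 3 * K * Z / L) * (3 * Γ * (c₃ * (2 + 2 * d * K))) := by
      rw [div_pow, hΘ3, hZ]; field_simp
    have e2 : (1 / 3 * K * Z / L) * (L * κ) = κ / 3 * (K * Z) := by field_simp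
    have h5 := mul_le_mul_of_nonneg_left hL.le (show (0 : ℝ) ≤ 1 / 3 * K * Z / L by positivity)
    rw [e]
    rw [e2] at h5
    have h6 : κ / 3 * (K * Z) * 1 ≤ κ / 3 * (K * Z) * (4 * M ^ 2) :=
      mul_le_mul_of_nonneg_left (by nlinarith) (by positivity)
    nlinarith
  have h4 := mul_le_mul_of_nonneg_left (add_le_add h3 h2) (show (0 : ℝ) ≤ L ^ 2 by positivity)
  have e : (K : ℝ) * L ^ 2 * (L ^ r) ^ 3 = K * Z := by rw [hZ]; ring
  rw [e]
  nlinarith

theorem smoothing {ι : Type} (ev : ι → A →+ ℝ) (gr : Fin d → A →+ ℝ) (eh : Fin d → A)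
    (he : ∀ α β, gr β (eh α) = if β = α then 1 else 0) (W : GR A) (hW : ∀ i, mp (ev i) W = 0)
    (hW0 : Fn (fun _ => 1) W = 0)
    (hB : ∀ α β, Fn (fun a => gr α a * gr β a) W = if α = β then 2 else 0) (κ : ℝ) (hκ : 0 < κ) :
    ∃ P ∈ Pos A, ∃ N ∈ Pos A, ∃ g : ℝ, 0 < g ∧ (∀ i, mp (ev i) (P - N) = 0) ∧
      (∀ α β, Fn (fun a => gr α a * gr β a) (P - N) = if α = β then g else 0) ∧
      Fn (fun a => ∑ α, gr α a * gr α a) N ≤ κ * g := by
  classical
  obtain ⟨S, _, c, l, hWe⟩ := exists_repr W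
  have hB' : ∀ α β, ∑ k, (c k : ℝ) * (gr α (l k) * gr β (l k)) = if α = β then 2 else 0 := by
    intro α β
    rw [← hB α β, hWe, map_sum]
    simp only [Fn_smul, Fn_eg]
  have hc0 : ∑ k, c k = 0 := by
    rw [hWe, map_sum] at hW0
    simp only [Fn_smul, Fn_eg, mul_one] at hW0
    exact_mod_cast hW0
  obtain ⟨C₁, hC₁, hexp⟩ := expansion gr eh he c l hB'
  set r := Fintype.card (Fin d ⊕ S) with hr
  set Γ : ℝ := (((1 + (d + 1)) ^ 2) ^ r) ^ 3 with hΓ
  have hΓ0 : 0 < Γ := by positivity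
  obtain ⟨K, hK⟩ := exists_nat_gt (3 * Γ * (2 * d + 1) / κ)
  have hK0 : (0 : ℝ) < K := lt_of_le_of_lt (by positivity) hK
  obtain ⟨M, hM⟩ := exists_nat_gt (3 * Γ * (r ^ 2 * C₁ * (2 + 2 * d * K)) / κ)
  have hM0 : (0 : ℝ) < M := lt_of_le_of_lt (by positivity) hM
  have hM1 : 1 ≤ M := by exact_mod_cast hM0
  have hM1' : (1 : ℝ) ≤ M := by exact_mod_cast hM1
  obtain ⟨γ, hγ, a, ha, hE⟩ := hexp M hM1
  obtain ⟨c₃, hc₃, hE3⟩ := Bd_order γ gr hγ 3 hE
  obtain ⟨L, hL⟩ := exists_nat_gt (3 * Γ * (c₃ * (2 + 2 * d * K)) / κ)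
  have hL0 : (0 : ℝ) < L := lt_of_le_of_lt (by positivity) hL
  have hL1 : 1 ≤ L := by exact_mod_cast hL0
  set WM := ∑ k, c k • (eg ((M : ℤ) • l k) + eg (-((M : ℤ) • l k)) - 2) with hWM
  set Δ := ∑ α, (eg (eh α) + eg (-eh α) - 2) with hΔ
  set E₂ := ∑ t, ∑ t', a t t' • ((eg (γ t) - 1) * (eg (γ t') - 1)) with hE₂
  set U := UL γ L with hU
  set σ := ∑ j ∈ range (K * L ^ 2), walk eh ^ j with hσ
  set Θ : ℝ := (L * (1 + (d + 1)) ^ 2) ^ r with hΘ
  have hΘ3 : Θ ^ 3 = Γ * (L ^ r) ^ 3 := by rw [hΘ, hΓ, mul_pow]; ring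
  have hBU : Bd (om gr L) U Θ := Bd_UL γ gr hL1 hγ
  have hmul := fun {x y : GR A} {c c' : ℝ} (h : Bd (om gr L) x c) (h' : Bd (om gr L) y c') =>
    Bd.mul (om_nonneg gr L) (om_submul gr L) h h'
  have hBE2 : Bd (om gr L) (E₂ * U ^ 3) (r ^ 2 * (C₁ * M * (4 * (Θ ^ 3 / L ^ 2)))) := by
    have h1 : ∀ t t', Bd (om gr L) (a t t' • ((eg (γ t) - 1) * (eg (γ t') - 1)) * U ^ 3)
        (C₁ * M * (4 * (Θ ^ 3 / L ^ 2))) := by
      intro t t'
      have h2 := (hmul (hmul (Bd_delta_UL γ gr hL1 hγ t) (Bd_delta_UL γ gr hL1 hγ t')) hBU).smul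
        (a t t')
      have e : a t t' • ((eg (γ t) - 1) * (eg (γ t') - 1)) * U ^ 3 =
          a t t' • ((eg (γ t) - 1) * UL γ L * ((eg (γ t') - 1) * UL γ L) * U) := by
        rw [smul_mul_assoc, hU]; congr 1; ring
      rw [e]
      refine h2.mono ?_
      have e2 : 2 * (Θ / L) * (2 * (Θ / L)) * Θ = 4 * (Θ ^ 3 / L ^ 2) := by ring
      rw [← hr, ← hΘ, e2]
      exact mul_le_mul_of_nonneg_right (ha t t') (by positivity)
    have h2 := Bd.sum univ _ _ fun t _ => Bd.sum univ _ _ fun t' _ => h1 t t'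
    simp only [sum_const, card_univ, nsmul_eq_mul, ← hr] at h2
    rw [hE₂, sum_mul]
    simp only [sum_mul]
    convert h2 using 1
    ring
  have hBE3 := hE3 L hL1
  rw [← hr, ← hΘ, ← hU] at hBE3
  have hBσ := Bd_green gr eh he hL1 K
  rw [← hσ] at hBσ
  obtain ⟨P', hP', N', hN', hPN, hbd⟩ := hmul (hBE2.add hBE3) hBσ
  have hwalk : Δ * σ = (2 * d + 1 : ℚ) • (walk eh ^ (K * L ^ 2) - 1) := by
    have h1 : Δ = (2 * d + 1 : ℚ) • (walk eh - 1) := by
      rw [walk, smul_sub, smul_smul, mul_inv_cancel₀ (by positivity), one_smul, hΔ,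
        sum_sub_distrib, sum_const, card_univ, Fintype.card_fin, nsmul_eq_mul, Algebra.smul_def,
        map_add, map_mul, map_ofNat, map_natCast, map_one]
      ring
    rw [h1, smul_mul_assoc, hσ, mul_geom_sum]
  have hU3 : U ^ 3 ∈ Pos A := pos_pow (UL_pos γ L) 3
  set q : ℚ := 2 * (M : ℚ) ^ 2 * (2 * d + 1) with hq
  have hq0 : 0 ≤ q := by positivity
  have hη : (q • (walk eh ^ (K * L ^ 2) * U ^ 3) + P') - (q • U ^ 3 + N') = WM * (σ * U ^ 3) := by
    have h1 : WM * (σ * U ^ 3) = (2 * (M : ℚ) ^ 2) • (Δ * σ) * U ^ 3 +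
        (E₂ * U ^ 3 + (WM - (2 * (M : ℚ) ^ 2) • Δ - E₂) * U ^ 3) * σ := by
      simp only [Algebra.smul_def]; ring
    rw [h1, hPN, hwalk, smul_smul, ← hq]
    simp only [Algebra.smul_def]; ring
  have hWMe : WM = mp (zsmulAddGroupHom (M : ℤ)) W + mp (zsmulAddGroupHom (-(M : ℤ))) W := by
    rw [hWe, map_sum, map_sum, ← sum_add_distrib, hWM]
    simp only [smul_sub, sum_sub_distrib, ← sum_smul, hc0, zero_smul, sub_zero, mp_smul, mp_eg,
      smul_add]
    simp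
  have hσm : Fn (fun _ => 1) (σ * U ^ 3) = K * L ^ 2 * (L ^ r) ^ 3 := by
    rw [Fn_mul_zero, pow_succ, pow_two, Fn_mul_zero, Fn_mul_zero, hU, UL_mass, hσ, map_sum]
    simp only [walk_pow_mass, sum_const, card_range, nsmul_eq_mul, mul_one]
    push_cast; ring
  refine ⟨q • (walk eh ^ (K * L ^ 2) * U ^ 3) + P',
    add_mem (pos_smul hq0 (pos_mul (pos_pow (walk_pos eh) _) hU3)) hP', q • U ^ 3 + N',
    add_mem (pos_smul hq0 hU3) hN', 4 * M ^ 2 * (K * L ^ 2 * (L ^ r) ^ 3), by positivity,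
    fun i => ?_, fun α β => ?_, ?_⟩
  · rw [hη, map_mul, hWMe, map_add, mp_comm_zsmul, mp_comm_zsmul, hW]
    simp
  · rw [hη, Fn_mul_two, hσm]
    have h0 : Fn (fun _ => 1) WM = 0 := by
      rw [hWMe, map_add, Fn_mp, Fn_mp, hW0, add_zero]
    have h1 : ∀ f : A →+ ℝ, Fn f WM = 0 := by
      intro f
      rw [hWMe, map_add, Fn_mp, Fn_mp, ← Fn_add_fun]
      have : (fun a => f (zsmulAddGroupHom (M : ℤ) a) + f (zsmulAddGroupHom (-(M : ℤ)) a)) =
          fun a => 0 * f a := by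
        funext a; simp
      rw [this, Fn_const_mul, zero_mul]
    have h2 : Fn (fun a => gr α a * gr β a) WM = 2 * M ^ 2 * if α = β then 2 else 0 := by
      rw [hWMe, map_add, Fn_mp, Fn_mp, ← Fn_add_fun, ← hB, ← Fn_const_mul]
      congr 2
      funext a; simp; ring
    rw [h0, h1, h1, h2]
    split_ifs <;> ring
  · have hNpos : q • U ^ 3 + N' ∈ Pos A := add_mem (pos_smul hq0 hU3) hN'
    refine (Fn_mono (sq_le_om gr hL1) hNpos).trans ?_
    rw [Fn_const_mul, map_add, Fn_smul]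
    have h1 : Fn (om gr L) (U ^ 3) ≤ Θ ^ 3 := by
      have hUp := UL_pos γ L
      have h0 : Fn (om gr L) U ≤ Θ := by
        obtain ⟨P, hP, N, hN, e, h⟩ := hBU
        rw [e, map_sub]
        linarith [Fn_nonneg (om_nonneg gr L) hN]
      have h00 := Fn_nonneg (om_nonneg gr L) hUp
      rw [← hU] at h00
      have a1 := Fn_submul (om_submul gr L) hUp hUp
      have a2 := Fn_submul (om_submul gr L) (pos_mul hUp hUp) hUp
      rw [← hU] at a1 a2
      rw [pow_succ, pow_two]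
      have a3 := mul_le_mul_of_nonneg_right a1 h00
      have a4 := pow_le_pow_left₀ h00 h0 3
      nlinarith
    have h2 : Fn (om gr L) N' ≤ (r ^ 2 * (C₁ * M * (4 * (Θ ^ 3 / L ^ 2))) + c₃ * (Θ / L) ^ 3) *
        (K * L ^ 2 * (2 + 2 * d * K)) := by
      linarith [Fn_nonneg (om_nonneg gr L) hP']
    have hqr : (q : ℝ) = 2 * M ^ 2 * (2 * d + 1) := by rw [hq]; push_cast; ring
    have h3 := mul_le_mul_of_nonneg_left h1 (show (0 : ℝ) ≤ q by exact_mod_cast hq0)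
    exact numeric_bound hκ hK0 hM1' hL0 hK hM hL hΘ3 hqr h3 h2

end Vale.Agent.P058
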