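import Vale.Agent.P058.Tensor

set_option autoImplicit false

open Finset TensorProduct

namespace Vale.Agent.P058

variable {ι : Type} {d : ℕ}

/-- padding columns orthogonal to a direction -/
noncomputable def pad (a : ι → Fin d → ℝ) (v : Fin d → ℝ) : List (ι → ℝ) :=
  (univ : Finset (Fin d × Fin d)).toList.map fun p i => (v p.1 * a i p.2 - v p.2 * a i p.1) / √2

theorem lagrange (u v : Fin d → ℝ) :
    (∑ α, v α * u α) ^ 2 + ∑ p : Fin d × Fin d, (v p.1 * u p.2 - v p.2 * u p.1) ^ 2 / 2 =
      (∑ α, v α * v α) * ∑ α, u α ^ 2 := by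
  have h1 : (∑ α, v α * v α) * ∑ α, u α ^ 2 = ∑ α, ∑ β, v α * v α * u β ^ 2 := sum_mul_sum _ _ _ _
  have h2 : (∑ α, v α * v α) * ∑ α, u α ^ 2 = ∑ α, ∑ β, v β * v β * u α ^ 2 := by
    rw [h1, sum_comm]
  have h3 : (∑ α, v α * u α) ^ 2 = ∑ α, ∑ β, v α * u α * (v β * u β) := by
    rw [pow_two, sum_mul_sum]
  have h4 : (∑ α, v α * v α) * ∑ α, u α ^ 2 =
      ((∑ α, ∑ β, v α * v α * u β ^ 2) + ∑ α, ∑ β, v β * v β * u α ^ 2) / 2 := by
    rw [← h1, ← h2]; ring
  rw [h4, h3, Fintype.sum_prod_type, ← sum_add_distrib, ← sum_add_distrib, sum_div]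
  refine sum_congr rfl fun α _ => ?_
  rw [← sum_add_distrib, ← sum_add_distrib, sum_div]
  exact sum_congr rfl fun β _ => by ring

theorem Dw_pad (a : ι → Fin d → ℝ) (l : Fin (d + 1) → ℝ) :
    Dw ((fun i => evp (a i) l) :: pad a fun α => grd α l) =
      (∑ α, grd α l * grd α l) • DD a := by
  funext i j
  have h := lagrange (fun α => a i α - a j α) fun α => grd α l
  simp only [Dw, pad, List.map_cons, List.sum_cons, List.map_map, Pi.smul_apply, smul_eq_mul, DD]
  rw [← h, Finset.sum_map_toList]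
  congr 1
  · rw [evp_apply, evp_apply]
    congr 1
    simp only [mul_sub, sum_sub_distrib]; ring
  · refine sum_congr rfl fun p _ => ?_
    simp only [Function.comp_apply]
    rw [← sub_div, div_pow, Real.sq_sqrt (by norm_num)]
    ring

theorem Dw_cols (a : ι → Fin d → ℝ) (X : List (Fin (d + 1) → ℝ)) (i j : ι) :
    Dw (X.map fun l i => evp (a i) l) i j =
      ∑ α, ∑ β, (a i α - a j α) * (a i β - a j β) *
        Fn (fun l => grd α l * grd β l) (X.map eg).sum := by
  induction X with
  | nil => simp [Dw]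
  | cons l X ih =>
    simp only [Dw, List.map_cons, List.sum_cons, map_add, Fn_eg, mul_add, sum_add_distrib] at ih ⊢
    rw [ih]
    congr 1
    have : evp (a i) l - evp (a j) l = ∑ α, grd α l * (a i α - a j α) := by
      rw [evp_apply, evp_apply]; simp only [mul_sub, sum_sub_distrib]; ring
    rw [this, pow_two, sum_mul_sum]
    exact sum_congr rfl fun α _ => sum_congr rfl fun β _ => by ring

theorem Dw_pads (a : ι → Fin d → ℝ) (X : List (Fin (d + 1) → ℝ)) : ∃ Z : List (ι → ℝ),
    Dw (X.map fun l i => evp (a i) l) + Dw Z =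
      Fn (fun l => ∑ α, grd α l * grd α l) (X.map eg).sum • DD a := by
  induction X with
  | nil => exact ⟨[], by funext i j; simp [Dw]⟩
  | cons l X ih =>
    obtain ⟨Z, hZ⟩ := ih
    refine ⟨(pad a fun α => grd α l) ++ Z, ?_⟩
    rw [List.map_cons, List.map_cons, List.sum_cons, map_add, Fn_eg, add_smul, ← hZ, ← Dw_pad,
      Dw_append]
    funext i j
    simp only [Dw, List.map_cons, List.sum_cons, Pi.add_apply]
    ring

theorem perm_of_sum_eq (X Y : List ℝ) (h : (X.map eg).sum = (Y.map eg).sum) : X.Perm Y := by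
  classical
  have key : ∀ (x : ℝ) (Z : List ℝ),
      Fn (fun y => if y = x then 1 else 0) (Z.map eg).sum = Z.count x := by
    intro x Z
    induction Z with
    | nil => simp
    | cons z Z ih =>
      rw [List.map_cons, List.sum_cons, map_add, ih, Fn_eg, List.count_cons]
      by_cases hz : z = x <;> simp [hz, add_comm]
  rw [List.perm_iff_count]
  intro x
  have := key x X
  rw [h, key] at this
  exact_mod_cast this.symm

theorem word_perm (X Y : List (ι → ℝ)) (i : ι) (h : (X.map fun c => c i).Perm (Y.map fun c => c i)) :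
    word X i * (word Y i)⁻¹ ∈ lcs (FreeGroup ℝ) 1 := by
  have : lcs (FreeGroup ℝ) 1 = commutator (FreeGroup ℝ) := rfl
  rw [this, ← Abelianization.ker_of, MonoidHom.mem_ker, map_mul, map_inv, mul_inv_eq_one, word, word,
    map_list_prod, map_list_prod]
  have h2 := (h.map fun x => Abelianization.of (FreeGroup.of x)).prod_eq
  simpa only [List.map_map, Function.comp_def] using h2

theorem DD_pos {a : ι → Fin d → ℝ} {i j : ι} (h : a j ≠ a i) : 0 < DD a i j := by
  obtain ⟨α, hα⟩ := Function.ne_iff.1 h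
  refine sum_pos' (fun _ _ => sq_nonneg _) ⟨α, mem_univ _, ?_⟩
  have : a i α - a j α ≠ 0 := sub_ne_zero.2 (Ne.symm hα)
  positivity

theorem exists_sep {a : ι → Fin d → ℝ} {i j : ι} (h : a j ≠ a i) (x x' : ℝ) :
    ∃ l : Fin (d + 1) → ℝ, evp (a i) l = x ∧ evp (a j) l = x' ∧
      ∀ α, grd α l = (x - x') / DD a i j * (a i α - a j α) := by
  have hD := DD_pos h
  set t := (x - x') / DD a i j with ht
  refine ⟨Fin.cons (x' - ∑ α, t * (a i α - a j α) * a j α) fun α => t * (a i α - a j α),
    ?_, ?_, fun α => rfl⟩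
  · rw [evp_apply]
    have e : ∑ α, t * (a i α - a j α) * a i α - ∑ α, t * (a i α - a j α) * a j α = t * DD a i j := by
      rw [← sum_sub_distrib, DD, mul_sum]
      exact sum_congr rfl fun α _ => by ring
    have e2 : t * DD a i j = x - x' := by rw [ht]; field_simp
    simp only [grd, AddMonoidHom.mk'_apply, Fin.cons_succ, Fin.cons_zero]
    linarith
  · rw [evp_apply]
    simp only [grd, AddMonoidHom.mk'_apply, Fin.cons_succ, Fin.cons_zero]
    ring

theorem crit_rel [Fintype ι] [Nonempty ι] {a : ι → Fin d → ℝ} (ha : Function.Injective a)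
    (h : Crit a) : Rel (DD a) 1 := by
  classical
  obtain ⟨W₀, h1, h2⟩ := crit_W0 h
  obtain ⟨W, hW, hWB⟩ := exact_relation (fun i => evp (a i)) grd
    (fun i y => ⟨Pi.single 0 y, by simp [evp_single, pt]⟩)
    (fun i j hij y => by
      obtain ⟨l, h1, h2, -⟩ := exists_sep (ha.ne hij) y 0
      exact ⟨l, h1, h2⟩) W₀ h1
  have hW0 : Fn (fun _ => 1) W = 0 := by
    have := Fn_mp (fun _ => 1) (evp (a (Classical.arbitrary ι))) W
    rw [hW, map_zero] at this
    exact this.symm
  intro κ hκ
  obtain ⟨P, hP, N, hN, g, hg, e1, e2, e3⟩ := smoothing (fun i => evp (a i)) grd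
    (fun α => Pi.single α.succ 1) (fun α β => by simp [grd_single]) W hW hW0
    (fun α β => by rw [hWB, h2]) κ hκ
  obtain ⟨n, hn, hPn⟩ := pos_list hP
  obtain ⟨m, hm, hNm⟩ := pos_list hN
  obtain ⟨Xp, hXp⟩ := hPn m
  obtain ⟨Xn, hXn⟩ := hNm n
  rw [mul_comm m n] at hXn
  have hc : (0 : ℝ) < ((n * m : ℕ) : ℚ) := by positivity
  set c : ℚ := ((n * m : ℕ) : ℚ) with hcdef
  obtain ⟨Z, hZ⟩ := Dw_pads a Xn
  have hN0 : 0 ≤ Fn (fun l => ∑ α, grd α l * grd α l) N :=
    Fn_nonneg (fun l => sum_nonneg fun α _ => mul_self_nonneg _) hN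
  rw [← hXn, Fn_smul] at hZ
  refine ⟨(Xn.map fun l i => evp (a i) l) ++ Z, (Xp.map fun l i => evp (a i) l) ++ Z,
    c * Fn (fun l => ∑ α, grd α l * grd α l) N, c * g, by positivity, by positivity, ?_, ?_, ?_,
    fun i => ?_⟩
  · nlinarith [mul_le_mul_of_nonneg_left e3 hc.le]
  · rw [Dw_append, hZ]
  · rw [Dw_append, add_smul, ← hZ]
    funext i j
    simp only [Pi.add_apply, Pi.smul_apply, smul_eq_mul, Dw_cols, ← hXp, ← hXn, Fn_smul]
    have e4 : ∀ α β, Fn (fun l => grd α l * grd β l) P =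
        Fn (fun l => grd α l * grd β l) N + if α = β then g else 0 := by
      intro α β
      rw [← e2, map_sub]; ring
    have e5 : ∑ α, ∑ β, (a i α - a j α) * (a i β - a j β) * (c * if α = β then g else 0) =
        c * g * DD a i j := by
      rw [DD, mul_sum]
      refine sum_congr rfl fun α _ => ?_
      rw [sum_eq_single α]
      · simp; ring
      · intro b _ hb; simp [Ne.symm hb]
      · simp
    simp only [e4, mul_add, sum_add_distrib, e5]
    ring
  · rw [word_append, word_append, mul_inv_rev, ← mul_assoc, mul_inv_cancel_right]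
    refine word_perm _ _ _ (perm_of_sum_eq _ _ ?_)
    have key : ∀ X : List (Fin (d + 1) → ℝ),
        (((X.map fun l i => evp (a i) l).map fun c => c i).map eg).sum =
          mp (evp (a i)) (X.map eg).sum := by
      intro X
      rw [map_list_sum]
      simp only [List.map_map, Function.comp_def, mp_eg]
    rw [key, key, ← hXp, ← hXn, mp_smul, mp_smul, ← sub_eq_zero, ← smul_sub, ← map_sub, e1,
      smul_zero]

theorem crit_lists [Fintype ι] [Nonempty ι] {a : ι → Fin d → ℝ} (ha : Function.Injective a)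
    (h : Crit a) {κ : Type} [Finite κ] (col : List ℝ → κ) :
    ∃ X : List (ι → ℝ), Dw X = DD a ∧ ∃ k, ∀ i, col (X.map fun c => c i) = k := by
  classical
  refine ramsey_lists (DD a) (crit_rel ha h) (fun i j hij => ?_) (fun s hs => ?_) col
  · have hD := DD_pos (ha.ne hij)
    refine ⟨1 / DD a i j, by positivity, fun x x' => ?_⟩
    obtain ⟨l, h1, h2, h3⟩ := exists_sep (ha.ne hij) x x'
    refine ⟨_, _, h1, h2, fun z hz => ?_, (Dw_pad a l).trans ?_⟩
    · obtain ⟨p, -, rfl⟩ := List.mem_map.1 hz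
      simp only [h3]
      ring
    · congr 1
      simp only [h3]
      have : ∑ α, (x - x') / DD a i j * (a i α - a j α) * ((x - x') / DD a i j * (a i α - a j α)) =
          ((x - x') / DD a i j) ^ 2 * DD a i j := by
        rw [DD, mul_sum]
        exact sum_congr rfl fun α _ => by ring
      rw [this]
      field_simp
  · refine ⟨(univ : Finset (Fin d)).toList.map fun k i => √s * a i k, ?_⟩
    funext i j
    simp only [Dw, List.map_map, Pi.smul_apply, smul_eq_mul, DD]
    rw [Finset.sum_map_toList, mul_sum]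
    refine sum_congr rfl fun k _ => ?_
    simp only [Function.comp_apply]
    rw [← mul_sub, mul_pow, Real.sq_sqrt hs.le]

/-- the Ramsey property in coordinates -/
def Ram (a : ι → Fin d → ℝ) : Prop :=
  ∀ r : ℕ, 2 ≤ r → ∃ n : ℕ, 1 ≤ n ∧ ∀ c : (Fin n → ℝ) → Fin r,
    ∃ x : ι → Fin n → ℝ, DD x = DD a ∧ ∃ k, ∀ i, c (x i) = k

theorem sum_getD (X : List (ι → ℝ)) (i j : ι) :
    ∑ k : Fin (X.length + 1), ((X.map fun c => c i).getD k 0 - (X.map fun c => c j).getD k 0) ^ 2 =
      Dw X i j := by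
  induction X with
  | nil => simp [Dw]
  | cons c X ih =>
    simp only [Dw, List.map_cons, List.sum_cons] at ih ⊢
    rw [← ih]
    exact Fin.sum_univ_succ (n := X.length + 1) _

theorem crit_ram [Fintype ι] [Nonempty ι] {a : ι → Fin d → ℝ} (ha : Function.Injective a)
    (h : Crit a) : Ram a := by
  intro r _
  by_contra hcon
  push Not at hcon
  choose c hc using fun n : ℕ => hcon (n + 1) (by omega)
  let col : ℕ → List ℝ → Fin r := fun n w => c n fun k => w.getD k 0
  obtain ⟨X, hX, k, hk⟩ := crit_lists ha h fun w => col w.length w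
  obtain ⟨i, hi⟩ := hc X.length (fun i k => (X.map fun c => c i).getD k 0)
    (by funext i j; rw [← hX, ← sum_getD]; rfl) k
  apply hi
  have := hk i
  rw [List.length_map] at this
  exact this

end Vale.Agent.P058
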