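import Vale.Agent.P058.Smooth2
import Vale.Agent.P058.Glue

set_option autoImplicit false

open Finset TensorProduct

namespace Vale.Agent.P058

variable {ι : Type} {d : ℕ}

/-- homogeneous coordinates -/
def pt (a : Fin d → ℝ) : Fin (d + 1) → ℝ := Fin.cons 1 a

/-- the tensor criterion over the reals -/
def Crit (a : ι → Fin d → ℝ) : Prop :=
  ∃ P : Fin (d + 1) → Fin (d + 1) → ℝ ⊗[ℚ] ℝ,
    (∀ i, ∑ α, ∑ β, (pt (a i) α ⊗ₜ[ℚ] pt (a i) β) * P α β = 0) ∧
      ∀ α β : Fin d, LinearMap.mul' ℚ ℝ (P α.succ β.succ) = if α = β then 1 else 0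

/-- squared distance matrix -/
def DD (a : ι → Fin d → ℝ) : ι → ι → ℝ := fun i j => ∑ α, (a i α - a j α) ^ 2

theorem bi_left (x x' y : ℝ) :
    Ideal.Quotient.mk (aug ℝ ^ 3) ((eg (x + x') - 1) * (eg y - 1)) =
      Ideal.Quotient.mk (aug ℝ ^ 3) ((eg x - 1) * (eg y - 1)) +
        Ideal.Quotient.mk (aug ℝ ^ 3) ((eg x' - 1) * (eg y - 1)) := by
  rw [← map_add, Ideal.Quotient.eq]
  have e : (eg (x + x') - 1) * (eg y - 1) - ((eg x - 1) * (eg y - 1) + (eg x' - 1) * (eg y - 1)) =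
      (eg x - 1) * (eg x' - 1) * (eg y - 1) := by rw [eg_add]; ring
  rw [e, pow_succ, pow_two]
  exact Ideal.mul_mem_mul (Ideal.mul_mem_mul (delta_mem _) (delta_mem _)) (delta_mem _)

/-- the biadditive map into the second graded piece -/
noncomputable def biq : ℝ →+ ℝ →+ (GR ℝ ⧸ aug ℝ ^ 3) :=
  AddMonoidHom.mk' (fun x => AddMonoidHom.mk'
    (fun y => Ideal.Quotient.mk (aug ℝ ^ 3) ((eg x - 1) * (eg y - 1)))
    (fun y y' => by
      rw [mul_comm, bi_left, mul_comm (eg y - 1), mul_comm (eg y' - 1)]))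
    (fun x x' => by ext y; exact bi_left x x' y)

/-- the induced map on the tensor square -/
noncomputable def tq : ℝ ⊗[ℚ] ℝ →+ (GR ℝ ⧸ aug ℝ ^ 3) :=
  TensorProduct.liftAddHom biq fun r m n => by
    rw [map_rat_smul biq r m, map_rat_smul (biq m) r n]; rfl

theorem tq_tmul (x y : ℝ) :
    tq (x ⊗ₜ[ℚ] y) = Ideal.Quotient.mk (aug ℝ ^ 3) ((eg x - 1) * (eg y - 1)) := rfl

/-- evaluation of an affine function at a point -/
def evp (a : Fin d → ℝ) : (Fin (d + 1) → ℝ) →+ ℝ :=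
  AddMonoidHom.mk' (fun l => ∑ α, l α * pt a α) fun l l' => by
    simp [add_mul, sum_add_distrib]

/-- gradient coordinate -/
def grd (α : Fin d) : (Fin (d + 1) → ℝ) →+ ℝ := AddMonoidHom.mk' (fun l => l α.succ) fun _ _ => rfl

theorem evp_apply (a : Fin d → ℝ) (l : Fin (d + 1) → ℝ) :
    evp a l = l 0 + ∑ α, grd α l * a α := by
  simp [evp, grd, pt, Fin.sum_univ_succ]

theorem evp_single (a : Fin d → ℝ) (α : Fin (d + 1)) (x : ℝ) :
    evp a (Pi.single α x) = pt a α * x := by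
  simp [evp, Pi.single_apply, mul_comm]

theorem grd_single (γ : Fin d) (α : Fin (d + 1)) (x : ℝ) :
    grd γ (Pi.single α x) = if γ.succ = α then x else 0 := by
  simp [grd, Pi.single_apply]

theorem entry_lift (α β : Fin (d + 1)) (t : ℝ ⊗[ℚ] ℝ) : ∃ w : GR (Fin (d + 1) → ℝ),
    (∀ a : Fin d → ℝ, Ideal.Quotient.mk (aug ℝ ^ 3) (mp (evp a) w) =
      tq ((pt a α ⊗ₜ[ℚ] pt a β) * t)) ∧
    ∀ γ δ, Fn (fun l => grd γ l * grd δ l) w = LinearMap.mul' ℚ ℝ t *
      ((if γ.succ = α ∧ δ.succ = β then 1 else 0) + if δ.succ = α ∧ γ.succ = β then 1 else 0) := by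
  induction t using TensorProduct.induction_on with
  | zero => exact ⟨0, fun a => by simp, fun γ δ => by simp⟩
  | add s t hs ht =>
    obtain ⟨w, h1, h2⟩ := hs
    obtain ⟨w', h1', h2'⟩ := ht
    refine ⟨w + w', fun a => ?_, fun γ δ => ?_⟩
    · rw [map_add, map_add, h1, h1', mul_add, map_add]
    · rw [map_add, h2, h2', map_add, add_mul]
  | tmul x y =>
    refine ⟨(eg (Pi.single α x) - 1) * (eg (Pi.single β y) - 1), fun a => ?_, fun γ δ => ?_⟩
    · rw [Algebra.TensorProduct.tmul_mul_tmul, tq_tmul, map_mul, map_sub, map_sub, map_one, mp_eg,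
        mp_eg, evp_single, evp_single]
    · rw [Fn_mul_two]
      simp only [map_sub, Fn_eg, Fn_one, map_zero, sub_self, mul_zero, zero_mul, sub_zero, zero_add,
        add_zero, grd_single, LinearMap.mul'_apply]
      simp only [ite_and]
      split_ifs <;> ring

theorem crit_W0 {a : ι → Fin d → ℝ} (h : Crit a) : ∃ W₀ : GR (Fin (d + 1) → ℝ),
    (∀ i, mp (evp (a i)) W₀ ∈ aug ℝ ^ 3) ∧
      ∀ γ δ, Fn (fun l => grd γ l * grd δ l) W₀ = if γ = δ then 2 else 0 := by
  obtain ⟨P, h1, h2⟩ := h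
  choose w hw1 hw2 using fun α β => entry_lift α β (P α β)
  refine ⟨∑ α, ∑ β, w α β, fun i => ?_, fun γ δ => ?_⟩
  · rw [← Ideal.Quotient.eq_zero_iff_mem]
    simp only [map_sum, hw1]
    simp only [← map_sum, h1, map_zero]
  · simp only [map_sum, hw2, mul_add, sum_add_distrib]
    have key : ∀ γ δ : Fin d, ∑ α, ∑ β, LinearMap.mul' ℚ ℝ (P α β) *
        (if γ.succ = α ∧ δ.succ = β then 1 else 0) = if γ = δ then 1 else 0 := by
      intro γ δ
      rw [← h2, sum_eq_single γ.succ, sum_eq_single δ.succ]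
      · simp
      · intro b _ hb; simp [Ne.symm hb]
      · simp
      · intro b _ hb; simp [Ne.symm hb]
      · simp
    rw [key, key]
    by_cases h : γ = δ
    · simp [h]; norm_num
    · simp [h, Ne.symm h]

end Vale.Agent.P058
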